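import Vale.Agent.P340.GND.Cases

/-!
# P340: from the induction step to strong normalization

A derivation is valid in a subspecification with finitely many axioms, which is again generalized
nondependent and weakly normalizing, and there the levels are well founded upwards.
-/

universe u

namespace Vale.Agent.P340

open Relation

variable {S : Type u}

/-- Keep the axioms listed in `L` and the rules whose sorts they connect. -/
def Spec.restrict (P : Spec S) (L : List (S × S)) : Spec S where
  Ax a b := P.Ax a b ∧ (a, b) ∈ L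
  Rule a b c := P.Rule a b c ∧ ReflTransGen (fun x y => P.Ax x y ∧ (x, y) ∈ L) b a

theorem Spec.restrict_isGND {P : Spec S} (hG : P.IsGND) (L : List (S × S)) :
    (P.restrict L).IsGND where
  functional h h' := hG.functional h.1 h'.1
  acyclic a h := hG.acyclic a (TransGen.mono (fun _ _ h => h.1) a a h)
  rule h := ⟨(hG.rule h.1).1, h.2⟩

theorem Typed.mono {P Q : Spec S} (hA : ∀ a b, P.Ax a b → Q.Ax a b)
    (hR : ∀ a b c, P.Rule a b c → Q.Rule a b c) {Γ : List (Tm S)} {M A : Tm S}
    (h : Typed P Γ M A) : Typed Q Γ M A := by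
  induction h with
  | ax h => exact .ax (hA _ _ h)
  | var _ ih => exact .var ih
  | weak _ _ ih ih' => exact .weak ih ih'
  | prod _ _ hr ih ih' => exact .prod ih ih' (hR _ _ _ hr)
  | lam _ _ ih ih' => exact .lam ih ih'
  | app _ _ ih ih' => exact .app ih ih'
  | conv _ _ hc ih ih' => exact .conv ih ih' hc

theorem Typed.restrict_mono {P : Spec S} {L L' : List (S × S)} (hL : ∀ p ∈ L, p ∈ L')
    {Γ : List (Tm S)} {M A : Tm S} (h : Typed (P.restrict L) Γ M A) :
    Typed (P.restrict L') Γ M A :=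
  Typed.mono (P := P.restrict L) (Q := P.restrict L') (fun _ _ h => ⟨h.1, hL _ h.2⟩)
    (fun _ _ _ h => ⟨h.1, h.2.lift (fun x => x) fun _ _ h' => ⟨h'.1, hL _ h'.2⟩⟩) h

theorem exists_chain {P : Spec S} {a b : S} (h : ReflTransGen P.Ax a b) :
    ∃ L : List (S × S), ReflTransGen (fun x y => P.Ax x y ∧ (x, y) ∈ L) a b := by
  induction h with
  | refl => exact ⟨[], .refl⟩
  | @tail c d _ hcd ih =>
    obtain ⟨L, hL⟩ := ih
    exact ⟨(c, d) :: L,
      (hL.lift (fun x => x) fun _ _ h => ⟨h.1, List.mem_cons_of_mem _ h.2⟩).tail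
        ⟨hcd, List.mem_cons_self⟩⟩

/-- A derivation uses finitely many axioms. -/
theorem Typed.exists_restrict {P : Spec S} (hG : P.IsGND) {Γ : List (Tm S)} {M A : Tm S}
    (h : Typed P Γ M A) : ∃ L, Typed (P.restrict L) Γ M A := by
  induction h with
  | @ax a b h => exact ⟨[(a, b)], .ax ⟨h, List.mem_cons_self⟩⟩
  | var _ ih => obtain ⟨L, h⟩ := ih; exact ⟨L, .var h⟩
  | weak _ _ ih ih' =>
    obtain ⟨L, h⟩ := ih
    obtain ⟨L', h'⟩ := ih'
    exact ⟨L ++ L', .weak (h.restrict_mono fun _ => List.mem_append_left _)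
      (h'.restrict_mono fun _ => List.mem_append_right _)⟩
  | prod _ _ hr ih ih' =>
    obtain ⟨L, h⟩ := ih
    obtain ⟨L', h'⟩ := ih'
    obtain ⟨L'', hL⟩ := exists_chain (hG.rule hr).2
    exact ⟨L ++ (L' ++ L''), .prod (h.restrict_mono fun _ => List.mem_append_left _)
      (h'.restrict_mono fun _ hp => List.mem_append_right _ (List.mem_append_left _ hp))
      ⟨hr, hL.lift (fun x => x) fun _ _ h =>
        ⟨h.1, List.mem_append_right _ (List.mem_append_right _ h.2)⟩⟩⟩
  | lam _ _ ih ih' =>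
    obtain ⟨L, h⟩ := ih
    obtain ⟨L', h'⟩ := ih'
    exact ⟨L ++ L', .lam (h.restrict_mono fun _ => List.mem_append_left _)
      (h'.restrict_mono fun _ => List.mem_append_right _)⟩
  | app _ _ ih ih' =>
    obtain ⟨L, h⟩ := ih
    obtain ⟨L', h'⟩ := ih'
    exact ⟨L ++ L', .app (h.restrict_mono fun _ => List.mem_append_left _)
      (h'.restrict_mono fun _ => List.mem_append_right _)⟩
  | conv _ _ hc ih ih' =>
    obtain ⟨L, h⟩ := ih
    obtain ⟨L', h'⟩ := ih'
    exact ⟨L ++ L', .conv (h.restrict_mono fun _ => List.mem_append_left _)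
      (h'.restrict_mono fun _ => List.mem_append_right _) hc⟩

theorem Typed.of_restrict {P : Spec S} {L : List (S × S)} {Γ : List (Tm S)} {M A : Tm S}
    (h : Typed (P.restrict L) Γ M A) : Typed P Γ M A :=
  Typed.mono (P := P.restrict L) (fun _ _ h => h.1) (fun _ _ _ h => h.1) h

theorem WeaklyNormalizing.restrict {P : Spec S} (hW : WeaklyNormalizing P) (L : List (S × S)) :
    WeaklyNormalizing (P.restrict L) := by
  rintro M ⟨Γ, ⟨A, h⟩ | ⟨N, h⟩⟩
  · exact hW M ⟨Γ, .inl ⟨A, h.of_restrict⟩⟩
  · exact hW M ⟨Γ, .inr ⟨N, h.of_restrict⟩⟩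

/-- With finitely many axioms every level is strongly normalizing, by downward induction. -/
theorem level_sn_of_step (hStep : StepSpec.{u}) {P : Spec S} (hG : P.IsGND)
    (hW : WeaklyNormalizing P) (L : List (S × S)) (hL : ∀ a b, P.Ax a b → (a, b) ∈ L)
    {Γ : List (Tm S)} {M : Tm S} {ℓ : Option S} (hM : HasLevel P Γ M ℓ) : M.SN := by
  classical
  let up : S → Set S := fun s => {i | TransGen P.Ax s i}
  have hfin : ∀ s, (up s).Finite := fun s =>
    (L.map Prod.snd).finite_toSet.subset fun i (hi : TransGen P.Ax s i) => by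
      obtain ⟨c, -, hc⟩ := TransGen.tail'_iff.1 hi
      exact List.mem_map.2 ⟨(c, i), hL c i hc, rfl⟩
  have key : ∀ n s, (up s).ncard = n → ∀ (Γ : List (Tm S)) (M : Tm S),
      HasLevel P Γ M (some s) → M.SN := by
    intro n
    induction n using Nat.strong_induction_on with
    | _ n ih =>
      intro s hn Γ M hM
      refine hStep P hG hW s (fun ℓ hℓ Γ' M' hM' => ?_) Γ M hM
      cases ℓ with
      | none => exact Tm.SN.of_normal (hM'.none_normal hG)
      | some i =>
        refine ih (up i).ncard ?_ i rfl Γ' M' hM'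
        rw [← hn]
        refine Set.ncard_lt_ncard ?_ (hfin s)
        exact ⟨fun j (hj : TransGen P.Ax i j) => TransGen.trans hℓ hj,
          fun hsub => hG.acyclic i (hsub hℓ)⟩
  cases ℓ with
  | none => exact Tm.SN.of_normal (hM.none_normal hG)
  | some s => exact key _ s rfl Γ M hM

theorem not_infinite_of_sn {M : Tm S} (h : M.SN) :
    ¬ ∃ f : ℕ → Tm S, f 0 = M ∧ ∀ n, Step (f n) (f (n + 1)) := by
  induction h with
  | intro M _ ih =>
    rintro ⟨f, h0, hf⟩
    exact ih (f 1) (h0 ▸ hf 0) ⟨fun n => f (n + 1), rfl, fun n => hf (n + 1)⟩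

theorem Typed.sn_of_step (hStep : StepSpec.{u}) {P : Spec S} (hG : P.IsGND)
    (hW : WeaklyNormalizing P) {Γ : List (Tm S)} {M A : Tm S} (h : Typed P Γ M A) : M.SN := by
  obtain ⟨L, hL⟩ := h.exists_restrict hG
  obtain ⟨ℓ, hℓ⟩ := hL.exists_level
  exact level_sn_of_step hStep (Spec.restrict_isGND hG L) (hW.restrict L) L (fun _ _ h => h.2) hℓ

/-- The induction step gives the conjecture for every generalized nondependent specification. -/
theorem bgk_of_step (hStep : StepSpec.{u}) :
    ∀ {S : Type u} (P : Spec S), P.IsGND → WeaklyNormalizing P → StronglyNormalizing P := by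
  intro S P hG hW M hM
  refine not_infinite_of_sn ?_
  obtain ⟨Γ, ⟨A, h⟩ | ⟨N, h⟩⟩ := hM
  · exact h.sn_of_step hStep hG hW
  · rcases h.correct with ⟨s, rfl⟩ | ⟨s, hs⟩
    · exact Tm.SN.of_normal fun M' h' => nomatch h'
    · exact hs.sn_of_step hStep hG hW

end Vale.Agent.P340
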