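import Vale.Agent.P340.GND.Image
import Vale.Agent.P340.Untyped.Conservation
import Vale.Agent.P340.Untyped.CompSim

/-!
# P340: skeletons of a level with both rules are strongly normalizing
-/

universe u

namespace Vale.Agent.P340

open Relation

variable {S : Type u} {P : Spec S} {s : S}

theorem Skel.red_step {Γ : List (Tm S)} {M : Tm S} {K : Sk} (h : Skel P s Γ M K) :
    ∀ {K' : Sk}, Sk.Red K K' → ∃ M', Step M M' := by
  induction h with
  | var => intro K' r; cases r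
  | sort => intro K' r; cases r
  | lamS _ _ ih =>
    intro K' r
    cases r with | lam r => obtain ⟨M', hM'⟩ := ih r; exact ⟨_, .lamR _ hM'⟩
  | lamH _ _ _ ih =>
    intro K' r
    cases r with | tlam r => obtain ⟨M', hM'⟩ := ih r; exact ⟨_, .lamR _ hM'⟩
  | appS _ _ _ hKf _ ihf iha =>
    intro K' r
    cases r with
    | beta b _ => cases hKf with | lamS _ _ => exact ⟨_, .beta _ _ _⟩
    | appL _ r => obtain ⟨M', hM'⟩ := ihf r; exact ⟨_, .appL _ hM'⟩
    | appR _ r => obtain ⟨M', hM'⟩ := iha r; exact ⟨_, .appR _ hM'⟩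
  | appH _ _ _ _ hKf ihf =>
    intro K' r
    cases r with
    | tbeta b => cases hKf with | lamH _ _ _ => exact ⟨_, .beta _ _ _⟩
    | tapp r => obtain ⟨M', hM'⟩ := ihf r; exact ⟨_, .appL _ hM'⟩
  | piS _ _ _ _ ihC ihD =>
    intro K' r
    cases r with
    | nodeL _ r => obtain ⟨M', hM'⟩ := ihC r; exact ⟨_, .piL _ hM'⟩
    | nodeR _ r => obtain ⟨M', hM'⟩ := ihD r; exact ⟨_, .piR _ hM'⟩
  | piH _ _ _ ih =>
    intro K' r
    cases r with
    | nodeL _ r => cases r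
    | nodeR _ r => obtain ⟨M', hM'⟩ := ih r; exact ⟨_, .piR _ hM'⟩

theorem Skel.reds (hG : P.IsGND) {Γ : List (Tm S)} {M N : Tm S} {K : Sk}
    (h : Skel P s Γ M K) (hs : Steps M N) : ∃ L, Skel P s Γ N L ∧ Sk.Reds K L := by
  induction hs with
  | refl => exact ⟨K, h, .refl⟩
  | tail _ h₂ ih =>
    obtain ⟨L, hL, hr⟩ := ih
    obtain ⟨L', hL', hh⟩ := hL.step hG h₂
    rcases hh with r | ⟨rfl, -⟩
    · exact ⟨L', hL', hr.tail r⟩
    · exact ⟨_, hL', hr⟩

theorem Comp.sn (hsim : CompSimSpec) {d : ℕ} {K U : Sk} (h : Comp d K U) (hU : U.SN) :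
    K.SN := by
  have hA : Acc (TransGen fun x y => Sk.Red y x) U := hU.transGen
  clear hU
  revert K
  induction hA with
  | intro U _ ih =>
    intro K h
    refine ⟨_, fun K' r => ?_⟩
    obtain ⟨U', hr, h'⟩ := hsim d K K' U h r
    exact ih U' hr.swap h'

theorem cpsCase : CPSCaseSpec.{u} := by
  intro S P hG hW s t hst hss hts Γ M K hL hK
  have hR : CPSRules P s t := ⟨hG, hst, hss, hts⟩
  obtain ⟨A, hA, hAs⟩ := hL
  obtain ⟨A', hA', -⟩ := Tr.sort_typed hR hAs .refl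
  obtain ⟨Δ, hC, hWΔ⟩ := CtxTr.exists hR hA.wf
  obtain ⟨U, Ku, hI⟩ := image_exists hR compRename hK hA hAs hA' hC hWΔ
  obtain ⟨N, hUN, hN⟩ := hW U ⟨Δ, .inl ⟨_, hI.typed⟩⟩
  obtain ⟨L, hL, hKL⟩ := hI.skel.reds hG hUN
  have hn : L.Normal := fun L' r => by
    obtain ⟨N', hN'⟩ := hL.red_step r
    exact hN N' hN'
  exact hI.comp.sn compSim (conservation Ku L hI.rel hKL hn)

end Vale.Agent.P340
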