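import Vale.Agent.P340.GND.Skel

/-!
# P340: the three cases of the induction step
-/

universe u

namespace Vale.Agent.P340

/-- Without the rule `(s, s, s)` skeletons of level `s` are strongly normalizing. -/
def NoLamCaseSpec : Prop :=
  ∀ {S : Type u} (P : Spec S), P.IsGND → ∀ s : S, ¬ P.Rule s s s →
    ∀ (Γ : List (Tm S)) (M : Tm S) (K : Sk),
      HasLevel P Γ M (some s) → Skel P s Γ M K → K.SN

/-- Without a rule `(t, s, s)`, `t` the type of `s`, skeletons of level `s` are simply typed. -/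
def ShapeCaseSpec : Prop :=
  ∀ {S : Type u} (P : Spec S), P.IsGND → WeaklyNormalizing P →
    ∀ s : S, (∀ t, P.Ax s t → ¬ P.Rule t s s) →
      ∀ (Γ : List (Tm S)) (M : Tm S) (K : Sk),
        HasLevel P Γ M (some s) → Skel P s Γ M K → K.SN

/-- With both rules, the continuation-passing translation is typable in the same system. -/
def CPSCaseSpec : Prop :=
  ∀ {S : Type u} (P : Spec S), P.IsGND → WeaklyNormalizing P →
    ∀ s t : S, P.Ax s t → P.Rule s s s → P.Rule t s s →
      ∀ (Γ : List (Tm S)) (M : Tm S) (K : Sk),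
        HasLevel P Γ M (some s) → Skel P s Γ M K → K.SN

/-- The induction step. -/
def StepSpec : Prop :=
  ∀ {S : Type u} (P : Spec S), P.IsGND → WeaklyNormalizing P → ∀ s : S, AboveSN P s →
    ∀ (Γ : List (Tm S)) (M : Tm S), HasLevel P Γ M (some s) → M.SN

theorem step_of_cases (h1 : NoLamCaseSpec.{u}) (h2 : ShapeCaseSpec.{u}) (h3 : CPSCaseSpec.{u}) :
    StepSpec.{u} := by
  intro S P hG hW s hU Γ M hM
  obtain ⟨K, hK⟩ := Skel.exists_of_level hG hM
  refine hK.sn hG hU ?_
  by_cases hs : P.Rule s s s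
  · by_cases ht : ∃ t, P.Ax s t ∧ P.Rule t s s
    · obtain ⟨t, h, h'⟩ := ht
      exact h3 P hG hW s t h hs h' Γ M K hM hK
    · exact h2 P hG hW s (fun t h h' => ht ⟨t, h, h'⟩) Γ M K hM hK
  · exact h1 P hG s hs Γ M K hM hK

end Vale.Agent.P340
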