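import Vale.Agent.P340.GND.Target
import Vale.Agent.P340.GND.Cases
import Vale.Agent.P340.Untyped.Comp

/-!
# P340: the continuation-passing image of an expression of level `s`
-/

universe u

namespace Vale.Agent.P340

open Relation

variable {S : Type u} {P : Spec S} {s t : S} {d : ℕ} {Γ Δ : List (Tm S)}

theorem Sk.upRen_eq (ξ : ℕ → ℕ) : Sk.upRen ξ = Tm.upRen ξ := by funext n; cases n <;> rfl

theorem Sk.occurs_rename_inv : ∀ (K : Sk) {n : ℕ} {ξ : ℕ → ℕ}, Sk.Occurs n (K.rename ξ) →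
    ∃ m, ξ m = n ∧ Sk.Occurs m K := by
  intro K
  induction K with
  | var m => exact fun h => ⟨m, h, rfl⟩
  | con => exact fun h => h.elim
  | lam b ih =>
    intro n ξ h
    obtain ⟨m, hm, hk⟩ := ih (n := n + 1) (ξ := upRen ξ) h
    cases m with
    | zero => exact (Nat.succ_ne_zero _ hm.symm).elim
    | succ m => exact ⟨m, Nat.succ_injective hm, hk⟩
  | tlam b ih =>
    intro n ξ h
    obtain ⟨m, hm, hk⟩ := ih (n := n + 1) (ξ := upRen ξ) h
    cases m with
    | zero => exact (Nat.succ_ne_zero _ hm.symm).elim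
    | succ m => exact ⟨m, Nat.succ_injective hm, hk⟩
  | app f a ihf iha =>
    intro n ξ h
    rcases h with h | h
    · obtain ⟨m, hm, hk⟩ := ihf h; exact ⟨m, hm, .inl hk⟩
    · obtain ⟨m, hm, hk⟩ := iha h; exact ⟨m, hm, .inr hk⟩
  | tapp f ih => exact fun h => ih h
  | node a b iha ihb =>
    intro n ξ h
    rcases h with h | h
    · obtain ⟨m, hm, hk⟩ := iha h; exact ⟨m, hm, .inl hk⟩
    · obtain ⟨m, hm, hk⟩ := ihb (n := n + 1) (ξ := upRen ξ) h
      cases m with
      | zero => exact (Nat.succ_ne_zero _ hm.symm).elim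
      | succ m => exact ⟨m, Nat.succ_injective hm, .inr hk⟩

theorem Skel.occurs {M : Tm S} {K : Sk} (hG : P.IsGND) (h : Skel P s Γ M K) :
    ∀ {n : ℕ}, Sk.Occurs n K → WF P Γ → ∃ A, At Γ n A ∧ Typed P Γ A (.sort s) := by
  have down : ∀ {Γ : List (Tm S)} {C : Tm S} {i : S} {n : ℕ}, Typed P Γ C (.sort i) →
      (∃ A, At (C :: Γ) (n + 1) A ∧ Typed P (C :: Γ) A (.sort s)) →
      ∃ A, At Γ n A ∧ Typed P Γ A (.sort s) := by
    rintro Γ C i n hC ⟨A, hA, hs⟩
    cases hA with
    | @succ A₀ _ m _ hm =>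
      obtain ⟨j, hj⟩ := hm.typed hC.wf
      obtain rfl : j = s := hG.unique_sort (Typed.weak hj hC) hs
      exact ⟨A₀, hm, hj⟩
  induction h with
  | var ha hA => intro n hn _; cases hn; exact ⟨_, ha, hA⟩
  | sort => exact fun hn _ => hn.elim
  | lamS hC _ ih => exact fun hn hW => down hC (ih hn (.cons hW hC))
  | lamH hC _ _ ih => exact fun hn hW => down hC (ih hn (.cons hW hC))
  | appS _ _ _ _ _ ihf iha => exact fun hn hW => hn.elim (ihf · hW) (iha · hW)
  | appH _ _ _ _ _ ihf => exact fun hn hW => ihf hn hW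
  | piS hC _ _ _ ihC ihD =>
    exact fun hn hW => hn.elim (ihC · hW) fun h => down hC (ihD h (.cons hW hC))
  | piH hC _ _ ih =>
    exact fun hn hW => hn.elim (fun h => h.elim) fun h => down hC (ih h (.cons hW hC))

theorem At.lt_length {n : ℕ} {A : Tm S} (h : At Γ n A) : n < Γ.length := by
  induction h with
  | zero => exact Nat.succ_pos _
  | succ _ _ ih => exact Nat.succ_lt_succ ih

theorem Tm.nn_inst (A X : Tm S) (d : ℕ) :
    (Tm.nn (d + 3) A).inst X = Tm.nn (d + 2) (A.inst X) :=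
  Tm.nn_subst A rfl

theorem Conv.nn {d : ℕ} {A B : Tm S} (h : Conv A B) : Conv (Tm.nn d A) (Tm.nn d B) := by
  obtain ⟨L, h1, h2⟩ := h.join
  exact .of_join (Steps.nn h1) (Steps.nn h2)

/-- `U`, with skeleton `Ku`, is an image of an expression with skeleton `K` and type translation
`T`. -/
structure Image (P : Spec S) (s : S) (d : ℕ) (Δ : List (Tm S)) (K : Sk) (T U : Tm S) (Ku : Sk) :
    Prop where
  typed : Typed P Δ U (Tm.nn d T)
  skel : Skel P s Δ U Ku
  rel : Ku.Relevant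
  comp : Comp d K Ku

variable {K Ku : Sk} {T U : Tm S}

theorem Image.rename (hCR : CompRenameSpec) (h : Image P s d Δ K T U Ku) {d' : ℕ}
    {Δ' : List (Tm S)} {ξ : ℕ → ℕ} (hW : WF P Δ') (hξ : Ren ξ Δ Δ') (h1 : ∀ n < d, ξ n < d')
    (h2 : ∀ j, ξ (d + j) = d' + j) :
    Image P s d' Δ' (K.rename ξ) (T.rename ξ) (U.rename ξ) (Ku.rename ξ) where
  typed := by rw [← Tm.nn_rename T (h2 3)]; exact h.typed.rename hW hξ
  skel := h.skel.rename hW hξ
  rel := Sk.relevant_rename _ _ h.rel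
  comp := hCR d d' K Ku ξ h.comp h1 h2

theorem Image.lift (hCR : CompRenameSpec) (h : Image P s d Δ K T U Ku) {Y : Tm S} {i : S}
    (hY : Typed P Δ Y (.sort i)) : Image P s (d + 1) (Y :: Δ) K.lift T.lift U.lift Ku.lift :=
  h.rename hCR (.cons hY.wf hY) WF.ren_succ (fun n hn => Nat.succ_lt_succ hn) (fun j => by omega)

theorem Image.shift (hCR : CompRenameSpec) {X N : Tm S} {i j : S}
    (h : Image P s (d + 1) (X :: Δ) K T U Ku) (hX : Typed P Δ X (.sort i))
    (hN : Typed P Δ N (.sort j)) :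
    Image P s (d + 2) (X.lift :: N :: Δ) (K.rename (Sk.upRen Nat.succ))
      (T.rename (Tm.upRen Nat.succ)) (U.rename (Tm.upRen Nat.succ))
      (Ku.rename (Sk.upRen Nat.succ)) := by
  have hW : WF P (N :: Δ) := .cons hX.wf hN
  rw [Sk.upRen_eq]
  refine h.rename hCR (.cons hW (hX.weak hN)) (WF.ren_succ.up X) (fun n hn => ?_) (fun k => ?_)
  · cases n with
    | zero => exact Nat.succ_pos _
    | succ n => exact Nat.succ_lt_succ hn
  · cases d <;> rw [Nat.add_right_comm] <;> simp only [Tm.upRen] <;> omega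

theorem Image.conv (hR : CPSRules P s t) (hB : Base P s d Δ) {T' : Tm S}
    (h : Image P s d Δ K T U Ku) (hT : Typed P Δ T' (.sort s)) (hc : Conv T T') :
    Image P s d Δ K T' U Ku where
  typed := .conv h.typed (hR.nn hB hT) hc.nn
  skel := h.skel
  rel := h.rel
  comp := h.comp

theorem Image.abs (hR : CPSRules P s t) (hB : Base P s d Δ) (hT : Typed P Δ T (.sort s))
    {B : Tm S} {KB : Sk} (hBt : Typed P (Tm.neg d T :: Δ) B (.var (d + 4)))
    (hBs : Skel P s (Tm.neg d T :: Δ) B KB) (ho : Sk.Occurs 0 KB) (hr : KB.Relevant)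
    (hc : BodyC (d + 1) K.lift (.var 0) KB) :
    Image P s d Δ K T (.lam (Tm.neg d T) B) (.lam KB) where
  typed := .lam hBt (hR.nn hB hT)
  skel := .lamS (hR.neg hB hT) hBs
  rel := ⟨ho, hr⟩
  comp := .mk hc

theorem Image.ret (hR : CPSRules P s t) (hB : Base P s d Δ) (hT : Typed P Δ T (.sort s))
    {V : Tm S} {KV : Sk} (hV : Typed P (Tm.neg d T :: Δ) V T.lift)
    (hVs : Skel P s (Tm.neg d T :: Δ) V KV) (hr : KV.Relevant)
    (hc : BodyC (d + 1) K.lift (.var 0) (.app (.var 0) KV)) :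
    Image P s d Δ K T (.lam (Tm.neg d T) (.app (.var 0) V)) (.lam (.app (.var 0) KV)) := by
  have hN := hR.neg hB hT
  have hk : Typed P (Tm.neg d T :: Δ) (.var 0) (.pi T.lift (.var (d + 5))) := .var hN
  refine Image.abs hR hB hT (Typed.app hk hV) ?_ (.inl rfl) ⟨trivial, hr⟩ hc
  exact .appS hk hV (hT.weak hN) (.var (.zero _ _) (hN.weak hN)) hVs

/-- `e` applied to an image of a type. -/
theorem Image.elim (hR : CPSRules P s t) (hB : Base P s d Δ) {v : S} (hv : P.Ax v s)
    (h : Image P s d Δ K (.sort v) U Ku) :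
    Typed P Δ (.app (.app (.var d) (.sort v)) U) (.sort v) ∧
      Skel P s Δ (.app (.app (.var d) (.sort v)) U) (.app (.tapp (.var d)) Ku) := by
  have he : Typed P Δ (.var d) (eTy s d) := .var' hB.wf hB.atE
  have hv' : Typed P Δ (.sort v) (.sort s) := .ax' hB.wf hv
  have h1 : Typed P Δ (.app (.var d) (.sort v)) (.pi (Tm.nn d (.sort v)) (.sort v)) :=
    Typed.app he hv'
  exact ⟨Typed.app h1 h.typed, .appS h1 h.typed (hR.nn hB hv')
    (.appH he hv' (hR.sort hB.wf) (.single hR.ax) (.var hB.atE (hR.eType hB))) h.skel⟩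

theorem image_exists (hR : CPSRules P s t) (hCR : CompRenameSpec) {M : Tm S} {K : Sk}
    (hK : Skel P s Γ M K) :
    ∀ {A A' : Tm S}, Typed P Γ M A → Typed P Γ A (.sort s) → Tr P s Γ A A' →
      ∀ {Δ : List (Tm S)}, CtxTr P s Γ Δ → WF P Δ →
        ∃ U Ku, Image P s Γ.length Δ K A' U Ku := by
  have hG := hR.gnd
  have conv : ∀ {Γ Δ : List (Tm S)} {M A A' A₀ T₀ U : Tm S} {K Ku : Sk},
      Typed P Γ M A → Typed P Γ A (.sort s) → Tr P s Γ A A' → CtxTr P s Γ Δ → WF P Δ →
      Typed P Γ M A₀ → Typed P Γ A₀ (.sort s) → Tr P s Γ A₀ T₀ →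
      Image P s Γ.length Δ K T₀ U Ku → ∃ U Ku, Image P s Γ.length Δ K A' U Ku := by
    intro Γ Δ M A A' A₀ T₀ U K Ku hM hA hA' hC hW hM₀ hA₀ hT₀ h
    exact ⟨U, Ku, h.conv hR (hC.base hW) (Tr.sort_typed_of hR hA .refl hA' hC hW)
      (hT₀.conv hG hA' (.inr ⟨_, hA₀⟩) (.inr ⟨_, hA⟩) (hG.unique hM₀ hM))⟩
  induction hK with
  | @var Γ n A₀ ha hA₀ =>
    intro A A' hM hA hA' Δ hC hW
    obtain ⟨T, hT, htT⟩ := Tr.sort_typed hR hA₀ .refl
    have hB := hC.base hW
    have hTt := htT Δ hC hW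
    have hat := hC.lookup hR ha hA₀ hT
    have hN := hR.neg hB hTt
    have hB1 := hB.cons hN
    have hT1 := hTt.weak hN
    have hx : Typed P (Tm.neg Γ.length T :: Δ) (.var (n + 1))
        (.pi (Tm.neg (Γ.length + 1) T.lift) (.var (Γ.length + 5))) := by
      have := Typed.var' hB1.wf (At.succ (Tm.neg Γ.length T) hat)
      rw [Tm.nn_lift] at this
      exact this
    have hk : Typed P (Tm.neg Γ.length T :: Δ) (.var 0) (Tm.neg (Γ.length + 1) T.lift) := by
      have := Typed.var hN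
      rw [Tm.neg_lift] at this
      exact this
    have hx' : Skel P s (Tm.neg Γ.length T :: Δ) (.var (n + 1)) (.var (n + 1)) :=
      .var (At.succ _ hat) ((hR.nn hB hTt).weak hN)
    refine conv hM hA hA' hC hW (.var' hA.wf ha) hA₀ hT
      (Image.abs hR hB hTt (Typed.app hx hk)
        (.appS hx hk (hR.neg hB1 hT1) hx' (.var (.zero _ _) (hN.weak hN))) (.inr rfl)
        ⟨trivial, trivial⟩ ?_)
    exact .var _ (Nat.succ_lt_succ ha.lt_length)
  | @sort Γ v u hvu hus =>
    intro A A' hM hA hA' Δ hC hW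
    have hB := hC.base hW
    have hTt : Typed P Δ (.sort u) (.sort s) := .ax' hW hus
    have hN := hR.neg hB hTt
    exact conv hM hA hA' hC hW (.ax' hA.wf hvu) (.ax' hA.wf hus) (.sort u)
      (Image.ret hR hB hTt (.ax' (hB.cons hN).wf hvu) (.sort hvu hus) trivial (.con _))
  | @lamS Γ C b Kb hC hKb ih =>
    intro A A' hM hA hA' Δ hCt hW
    have hL : HasLevel P Γ (.lam C b) (some s) := ⟨A, hM, hA⟩
    obtain ⟨B, i, s', e, hC₁, hb, hBs, hr, -, hP, hl⟩ := hL.lam hG
    injection e with e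
    subst e
    obtain ⟨C', hC', htC⟩ := Tr.sort_typed hR hC .refl
    obtain ⟨B', hB', htB⟩ := Tr.sort_typed hR hBs .refl
    have hPT := Tr.piS hC hBs hC' hB'
    have hPt := Tr.sort_typed_of hR hP .refl hPT hCt hW
    have hBase := hCt.base hW
    have hX := hR.nn hBase (htC Δ hCt hW)
    have hCx := hCt.same hC hC'
    have hWx := WF.cons hW hX
    obtain ⟨U1, K1, hI⟩ := ih hb hBs hB' hCx hWx
    have hN := hR.neg hBase hPt
    have hI2 := hI.shift hCR hX hN
    generalize hN' : Tm.neg Γ.length (Tm.pi (Tm.nn Γ.length C') (Tm.nn (Γ.length + 1) B')) = N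
      at hN hI2
    have hB1 := hBase.cons hN
    have hX1 := hX.weak hN
    have hB2 := hB1.cons hX1
    have hBt2 : Typed P ((Tm.nn Γ.length C').lift :: N :: Δ) (B'.rename (Tm.upRen Nat.succ))
        (.sort s) := (htB _ hCx hWx).rename hB2.wf (WF.ren_succ.up _)
    generalize hb2 : B'.rename (Tm.upRen Nat.succ) = B2 at hI2 hBt2
    have hH := hR.neg hB2 hBt2
    have hB3 := hB2.cons hH
    have hI3 := hI2.lift hCR hH
    generalize hU3 : (U1.rename (Tm.upRen Nat.succ)).lift = U3 at hI3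
    generalize hK3 : (K1.rename (Sk.upRen Nat.succ)).lift = K3 at hI3
    generalize hd : Γ.length = d at *
    have hh : Typed P (Tm.neg (d + 2) B2 :: (Tm.nn d C').lift :: N :: Δ) (.var 0)
        (Tm.neg (d + 3) B2.lift) := by
      have := Typed.var hH
      rw [Tm.neg_lift] at this
      exact this
    have hU : Typed P (Tm.neg (d + 2) B2 :: (Tm.nn d C').lift :: N :: Δ) (.app U3 (.var 0))
        (.var (d + 6)) := Typed.app hI3.typed hh
    have hq : Typed P (Tm.neg (d + 2) B2 :: (Tm.nn d C').lift :: N :: Δ) (.var (d + 5))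
        (qTy (d + 3)) := .var' hB3.wf hB3.atQ
    have hqU : Typed P (Tm.neg (d + 2) B2 :: (Tm.nn d C').lift :: N :: Δ)
        (.app (.var (d + 5)) (.app U3 (.var 0))) (Tm.neg (d + 3) (.var (d + 6))) :=
      Typed.app hq hU
    have hC3 : Typed P (Tm.neg (d + 2) B2 :: (Tm.nn d C').lift :: N :: Δ) C'.lift.lift.lift
        (.sort s) := (((htC Δ hCt hW).weak hN).weak hX1).weak hH
    have hw : Typed P (Tm.neg (d + 2) B2 :: (Tm.nn d C').lift :: N :: Δ) (.var (d + 4))
        (wTy s (d + 3)) := .var' hB3.wf hB3.atW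
    have hwC : Typed P (Tm.neg (d + 2) B2 :: (Tm.nn d C').lift :: N :: Δ)
        (.app (.var (d + 4)) C'.lift.lift.lift) (Tm.neg (d + 3) C'.lift.lift.lift) :=
      Typed.app hw hC3
    have hx : Typed P (Tm.neg (d + 2) B2 :: (Tm.nn d C').lift :: N :: Δ) (.var 1)
        (Tm.nn (d + 3) C'.lift.lift.lift) := by
      have := (Typed.var hX1).weak hH
      rw [Tm.nn_lift, Tm.nn_lift, Tm.nn_lift] at this
      exact this
    have hxw : Typed P (Tm.neg (d + 2) B2 :: (Tm.nn d C').lift :: N :: Δ)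
        (.app (.var 1) (.app (.var (d + 4)) C'.lift.lift.lift)) (.var (d + 6)) :=
      Typed.app hx hwC
    have hQ : Typed P (Tm.neg (d + 2) B2 :: (Tm.nn d C').lift :: N :: Δ)
        (.app (.app (.var (d + 5)) (.app U3 (.var 0)))
          (.app (.var 1) (.app (.var (d + 4)) C'.lift.lift.lift))) (.var (d + 6)) :=
      Typed.app hqU hxw
    have sQ : Skel P s (Tm.neg (d + 2) B2 :: (Tm.nn d C').lift :: N :: Δ)
        (.app (.app (.var (d + 5)) (.app U3 (.var 0)))
          (.app (.var 1) (.app (.var (d + 4)) C'.lift.lift.lift)))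
        (.app (.app (.var (d + 5)) (.app K3 (.var 0))) (.app (.var 1) (.tapp (.var (d + 4))))) :=
      .appS hqU hxw hB3.bot
        (.appS hq hU hB3.bot (.var hB3.atQ (hR.qType hB3))
          (.appS hI3.typed hh (hR.neg hB3 (hBt2.weak hH)) hI3.skel
            (.var (.zero _ _) (hH.weak hH))))
        (.appS hx hwC (hR.neg hB3 hC3) (.var (.succ _ (.zero _ _)) ((hX1.weak hX1).weak hH))
          (.appH hw hC3 (hR.sort hB3.wf) (.single hR.ax) (.var hB3.atW (hR.wType hB3))))
    have hp2 := hR.nn hB2 hBt2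
    have eP : (Tm.pi (Tm.nn d C') (Tm.nn (d + 1) B')).lift =
        .pi (Tm.nn d C').lift (Tm.nn (d + 2) B2) := by
      rw [← hb2, ← Tm.nn_rename B' (ξ := Tm.upRen Nat.succ) (d := d + 1) (d' := d + 2) rfl]
      rfl
    have hG' : Typed P (N :: Δ)
        (.lam (Tm.nn d C').lift (.lam (Tm.neg (d + 2) B2)
          (.app (.app (.var (d + 5)) (.app U3 (.var 0)))
            (.app (.var 1) (.app (.var (d + 4)) C'.lift.lift.lift)))))
        (Tm.pi (Tm.nn d C') (Tm.nn (d + 1) B')).lift := by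
      rw [eP]
      exact .lam (Typed.lam hQ hp2) (.prod hX1 hp2 hR.rss)
    subst hN'
    subst hd
    subst hK3
    exact conv hM hA hA' hCt hW hl hP hPT
      (Image.ret hR hBase hPt hG' (.lamS hX1 (.lamS hH sQ))
        ⟨.inr (.inl rfl), .inl (.inr (.inr rfl)),
          ⟨⟨trivial, hI3.rel, trivial⟩, trivial, trivial⟩⟩
        (.lam _ _ hI3.comp))
  | @lamH Γ C b i Kb hC hi hKb ih =>
    intro A A' hM hA hA' Δ hCt hW
    have hL : HasLevel P Γ (.lam C b) (some s) := ⟨A, hM, hA⟩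
    obtain ⟨B, j, s', e, hC₁, hb, hBs, hr, -, hP, hl⟩ := hL.lam hG
    injection e with e
    subst e
    obtain rfl := hG.unique_sort hC hC₁
    obtain ⟨C', hC', htC⟩ := Tr.sort_typed hR hC hi.to_reflTransGen
    obtain ⟨B', hB', htB⟩ := Tr.sort_typed hR hBs .refl
    have hPT := Tr.piH hC hi hBs hC' hB'
    have hPt := Tr.sort_typed_of hR hP .refl hPT hCt hW
    have hBase := hCt.base hW
    have hX := htC Δ hCt hW
    have hCx := hCt.high hC hi hC'
    have hWx := WF.cons hW hX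
    obtain ⟨U1, K1, hI⟩ := ih hb hBs hB' hCx hWx
    have hN := hR.neg hBase hPt
    have hI2 := hI.shift hCR hX hN
    have hB2 := (hBase.cons hN).cons (hX.weak hN)
    have hBt2 := (htB _ hCx hWx).rename hB2.wf (WF.ren_succ.up C')
    have hno : ¬ Sk.Occurs 0 (Kb.rename (Sk.upRen Nat.succ)) := by
      intro h
      obtain ⟨m, hm, hk⟩ := Sk.occurs_rename_inv _ h
      cases m with
      | succ m => exact Nat.succ_ne_zero _ hm
      | zero =>
        obtain ⟨A₁, hA₁, hs₁⟩ := hKb.occurs hG hk (.cons hA.wf hC)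
        cases hA₁
        exact hG.acyclic s (hG.unique_sort (Typed.weak hC hC) hs₁ ▸ hi)
    have eP : (Tm.pi C' (Tm.nn (Γ.length + 1) B')).lift =
        .pi C'.lift (Tm.nn (Γ.length + 2) (B'.rename (Tm.upRen Nat.succ))) := by
      rw [← Tm.nn_rename B' (ξ := Tm.upRen Nat.succ) (d := Γ.length + 1) (d' := Γ.length + 2) rfl]
      rfl
    have hG' : Typed P (Tm.neg Γ.length (Tm.pi C' (Tm.nn (Γ.length + 1) B')) :: Δ)
        (.lam C'.lift (U1.rename (Tm.upRen Nat.succ)))
        (Tm.pi C' (Tm.nn (Γ.length + 1) B')).lift := by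
      rw [eP]
      exact Typed.lam hI2.typed (.prod (hX.weak hN) (hR.nn hB2 hBt2) hr)
    exact conv hM hA hA' hCt hW hl hP hPT
      (Image.ret hR hBase hPt hG' (.lamH (hX.weak hN) hi hI2.skel) hI2.rel
        (.tlam _ hno hI2.comp))
  | @appS Γ f a C D Kf Ka hf ha hC hKf hKa ihf iha =>
    intro A A' hM hA hA' Δ hCt hW
    obtain ⟨i, v, w, hC₁, hD, hr⟩ := hf.pi_parts
    obtain rfl := hG.ruleEq hr
    obtain rfl := hG.unique_sort hC hC₁
    have hDa := hD.inst ha
    obtain rfl : w = s := hG.sort_of_conv hDa hA (hG.unique (.app hf ha) hM)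
    obtain ⟨C', hC', htC⟩ := Tr.sort_typed hR hC .refl
    obtain ⟨D', hD', htD⟩ := Tr.sort_typed hR hD .refl
    have hPT := Tr.piS hC hD hC' hD'
    have hP : Typed P Γ (.pi C D) (.sort w) := .prod hC hD hr
    have hPt := Tr.sort_typed_of hR hP .refl hPT hCt hW
    obtain ⟨Uf, Kuf, hIf⟩ := ihf hf hP hPT hCt hW
    obtain ⟨Ua, Kua, hIa⟩ := iha ha hC hC' hCt hW
    have hT0 : Tr P w Γ (D.inst a) (D'.inst Ua) :=
      hD'.inst hG hC ha fun h => absurd h (hG.acyclic w)
    have hT0t := Tr.sort_typed_of hR hDa .refl hT0 hCt hW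
    have hBase := hCt.base hW
    have hN := hR.neg hBase hT0t
    have hB1 := hBase.cons hN
    have hP1 := hPt.weak hN
    have hB2 := hB1.cons hP1
    have hIf1 := hIf.lift hCR hN
    have hIa1 := hIa.lift hCR hN
    have hIa2 := hIa1.lift hCR hP1
    generalize hd : Γ.length = d at *
    generalize hctx : (Tm.pi (Tm.nn d C') (Tm.nn (d + 1) D')).lift :: Tm.neg d (D'.inst Ua) :: Δ = Θ
      at hIa2 hB2
    have hm : Typed P Θ (.var 0) (.pi (Tm.nn (d + 2) C'.lift.lift)
        (Tm.nn (d + 3) ((D'.rename (Tm.upRen Nat.succ)).rename (Tm.upRen Nat.succ)))) := by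
      subst hctx
      have := Typed.var hP1
      simp only [Tm.lift, Tm.rename] at this
      rw [Tm.nn_rename C' (ξ := Nat.succ) (d := d) (d' := d + 1) rfl,
        Tm.nn_rename _ (ξ := Nat.succ) (d := d + 1) (d' := d + 2) rfl,
        Tm.nn_rename D' (ξ := Tm.upRen Nat.succ) (d := d + 1) (d' := d + 2) rfl,
        Tm.nn_rename _ (ξ := Tm.upRen Nat.succ) (d := d + 2) (d' := d + 3) rfl] at this
      exact this
    have hT2 : ((D'.rename (Tm.upRen Nat.succ)).rename (Tm.upRen Nat.succ)).inst Ua.lift.lift =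
        (D'.inst Ua).lift.lift := by
      simp only [Tm.lift, Tm.inst_rename]
    have hmA : Typed P Θ (.app (.var 0) Ua.lift.lift)
        (.pi (Tm.neg (d + 2) (D'.inst Ua).lift.lift) (.var (d + 6))) := by
      have := Typed.app hm hIa2.typed
      rw [Tm.nn_inst, hT2] at this
      exact this
    have hk : Typed P Θ (.var 1) (Tm.neg (d + 2) (D'.inst Ua).lift.lift) := by
      subst hctx
      have := (Typed.var hN).weak hP1
      rw [Tm.neg_lift, Tm.neg_lift] at this
      exact this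
    have hQ : Typed P Θ (.app (.app (.var 0) Ua.lift.lift) (.var 1)) (.var (d + 5)) :=
      Typed.app hmA hk
    subst hctx
    have hT2t := (hT0t.weak hN).weak hP1
    have sQ : Skel P w _ (.app (.app (.var 0) Ua.lift.lift) (.var 1))
        (.app (.app (.var 0) Kua.lift.lift) (.var 1)) :=
      .appS hmA hk (hR.neg hB2 hT2t)
        (.appS hm hIa2.typed (hR.nn hB2 (((htC Δ hCt hW).weak hN).weak hP1))
          (.var (.zero _ _) (hP1.weak hP1)) hIa2.skel)
        (.var (.succ _ (.zero _ _)) ((hN.weak hN).weak hP1))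
    have hL : Typed P (Tm.neg d (D'.inst Ua) :: Δ)
        (.lam (Tm.pi (Tm.nn d C') (Tm.nn (d + 1) D')).lift
          (.app (.app (.var 0) Ua.lift.lift) (.var 1)))
        (Tm.neg (d + 1) (Tm.pi (Tm.nn d C') (Tm.nn (d + 1) D')).lift) :=
      .lam hQ (hR.neg hB1 hP1)
    have hO : Typed P (Tm.neg d (D'.inst Ua) :: Δ)
        (.app Uf.lift (.lam (Tm.pi (Tm.nn d C') (Tm.nn (d + 1) D')).lift
          (.app (.app (.var 0) Ua.lift.lift) (.var 1)))) (.var (d + 4)) :=
      Typed.app hIf1.typed hL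
    subst hd
    exact conv hM hA hA' hCt hW (.app hf ha) hDa hT0
      (Image.abs hR hBase hT0t hO
        (.appS hIf1.typed hL (hR.neg hB1 hP1) hIf1.skel (.lamS hP1 sQ))
        (.inr (.inr rfl))
        ⟨hIf1.rel, .inl (.inl rfl), ⟨trivial, hIa2.rel⟩, trivial⟩
        (.app _ hIf1.comp hIa1.comp))
  | @appH Γ f a C D i Kf hf ha hC hi hKf ihf =>
    intro A A' hM hA hA' Δ hCt hW
    obtain ⟨i', v, w, hC₁, hD, hr⟩ := hf.pi_parts
    obtain rfl := hG.ruleEq hr
    obtain rfl := hG.unique_sort hC hC₁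
    have hDa := hD.inst ha
    obtain rfl : w = s := hG.sort_of_conv hDa hA (hG.unique (.app hf ha) hM)
    obtain ⟨C', hC', htC⟩ := Tr.sort_typed hR hC hi.to_reflTransGen
    obtain ⟨D', hD', htD⟩ := Tr.sort_typed hR hD .refl
    have hPT := Tr.piH hC hi hD hC' hD'
    have hP : Typed P Γ (.pi C D) (.sort w) := .prod hC hD hr
    have hPt := Tr.sort_typed_of hR hP .refl hPT hCt hW
    obtain ⟨Uf, Kuf, hIf⟩ := ihf hf hP hPT hCt hW
    have haL : HasLevel P Γ a (some i) := ⟨C, ha, hC⟩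
    obtain ⟨a', ha'⟩ := Tr.exists_of_level hG haL hi
    have hat : Typed P Δ a' C' := Tr.typed hR ha haL hi ha' hC' hCt hW
    have hT0 : Tr P w Γ (D.inst a) (D'.inst a') := hD'.inst hG hC ha fun _ => ha'
    have hT0t := Tr.sort_typed_of hR hDa .refl hT0 hCt hW
    have hBase := hCt.base hW
    have hN := hR.neg hBase hT0t
    have hB1 := hBase.cons hN
    have hP1 := hPt.weak hN
    have hB2 := hB1.cons hP1
    have hIf1 := hIf.lift hCR hN
    generalize hd : Γ.length = d at *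
    have hC2 := ((htC Δ hCt hW).weak hN).weak hP1
    have hm : Typed P ((Tm.pi C' (Tm.nn (d + 1) D')).lift :: Tm.neg d (D'.inst a') :: Δ) (.var 0)
        (.pi C'.lift.lift
          (Tm.nn (d + 3) ((D'.rename (Tm.upRen Nat.succ)).rename (Tm.upRen Nat.succ)))) := by
      have := Typed.var hP1
      simp only [Tm.lift, Tm.rename] at this
      rw [Tm.nn_rename D' (ξ := Tm.upRen Nat.succ) (d := d + 1) (d' := d + 2) rfl,
        Tm.nn_rename _ (ξ := Tm.upRen Nat.succ) (d := d + 2) (d' := d + 3) rfl] at this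
      exact this
    have ha2 := (hat.weak hN).weak hP1
    have hT2 : ((D'.rename (Tm.upRen Nat.succ)).rename (Tm.upRen Nat.succ)).inst a'.lift.lift =
        (D'.inst a').lift.lift := by
      simp only [Tm.lift, Tm.inst_rename]
    have hmA : Typed P ((Tm.pi C' (Tm.nn (d + 1) D')).lift :: Tm.neg d (D'.inst a') :: Δ)
        (.app (.var 0) a'.lift.lift)
        (.pi (Tm.neg (d + 2) (D'.inst a').lift.lift) (.var (d + 6))) := by
      have := Typed.app hm ha2
      rw [Tm.nn_inst, hT2] at this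
      exact this
    have hk : Typed P ((Tm.pi C' (Tm.nn (d + 1) D')).lift :: Tm.neg d (D'.inst a') :: Δ) (.var 1)
        (Tm.neg (d + 2) (D'.inst a').lift.lift) := by
      have := (Typed.var hN).weak hP1
      rw [Tm.neg_lift, Tm.neg_lift] at this
      exact this
    have hQ : Typed P ((Tm.pi C' (Tm.nn (d + 1) D')).lift :: Tm.neg d (D'.inst a') :: Δ)
        (.app (.app (.var 0) a'.lift.lift) (.var 1)) (.var (d + 5)) := Typed.app hmA hk
    have hT2t := (hT0t.weak hN).weak hP1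
    have sQ : Skel P w _ (.app (.app (.var 0) a'.lift.lift) (.var 1))
        (.app (.tapp (.var 0)) (.var 1)) :=
      .appS hmA hk (hR.neg hB2 hT2t)
        (.appH hm ha2 hC2 hi (.var (.zero _ _) (hP1.weak hP1)))
        (.var (.succ _ (.zero _ _)) ((hN.weak hN).weak hP1))
    have hL : Typed P (Tm.neg d (D'.inst a') :: Δ)
        (.lam (Tm.pi C' (Tm.nn (d + 1) D')).lift (.app (.app (.var 0) a'.lift.lift) (.var 1)))
        (Tm.neg (d + 1) (Tm.pi C' (Tm.nn (d + 1) D')).lift) :=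
      .lam hQ (hR.neg hB1 hP1)
    have hO : Typed P (Tm.neg d (D'.inst a') :: Δ)
        (.app Uf.lift (.lam (Tm.pi C' (Tm.nn (d + 1) D')).lift
          (.app (.app (.var 0) a'.lift.lift) (.var 1)))) (.var (d + 4)) :=
      Typed.app hIf1.typed hL
    subst hd
    exact conv hM hA hA' hCt hW (.app hf ha) hDa hT0
      (Image.abs hR hBase hT0t hO
        (.appS hIf1.typed hL (hR.neg hB1 hP1) hIf1.skel (.lamS hP1 sQ))
        (.inr (.inr rfl))
        ⟨hIf1.rel, .inl rfl, trivial, trivial⟩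
        (.tapp _ hIf1.comp))
  | @piS Γ C D v Kc Kd hC hv hKc hKd ihC ihD =>
    intro A A' hM hA hA' Δ hCt hW
    have hL : HasLevel P Γ (.pi C D) (some s) := ⟨A, hM, hA⟩
    obtain ⟨i, u, hC₁, hD, hr, hru, hl, hp⟩ := hL.pi hG
    obtain rfl := hG.unique_sort hC hC₁
    obtain rfl : v = u := by
      by_contra hne
      exact hG.acyclic v (TransGen.head' hv (reach_succ hG hl hru hne))
    have hns : ¬ ReflTransGen P.Ax s v := fun h => hG.acyclic v (TransGen.head' hv h)
    have hBase := hCt.base hW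
    have hTt : Typed P Δ (.sort v) (.sort s) := .ax' hW hv
    obtain ⟨UC, KC, hIC⟩ := ihC hC (.ax' hA.wf hv) (.sort v) hCt hW
    obtain ⟨hX, sX⟩ := hIC.elim hR hBase hv
    have hCx : CtxTr P s (C :: Γ) (Tm.app (.app (.var Γ.length) (.sort v)) UC :: Δ) :=
      hCt.other hC hns
    obtain ⟨UD, KD, hID⟩ :=
      ihD hD (.ax' (WF.cons hA.wf hC) hv) (.sort v) hCx (.cons hW hX)
    have hN := hR.neg hBase hTt
    have hID2 : Image P s (Γ.length + 2) _ _ (.sort v) _ _ := hID.shift hCR hX hN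
    have hB1 := hBase.cons hN
    have hX1 := hX.weak hN
    obtain ⟨hE, sE⟩ := hID2.elim hR (hB1.cons hX1) hv
    exact conv hM hA hA' hCt hW hp (.ax' hA.wf hv) (.sort v)
      (Image.ret hR hBase hTt (.prod hX1 hE hr)
        (.piS hX1 hv (sX.rename hB1.wf WF.ren_succ) sE)
        ⟨⟨trivial, Sk.relevant_rename _ _ hIC.rel⟩, ⟨trivial, hID2.rel⟩⟩
        (.nodeS _ (hIC.lift hCR hN).comp hID2.comp))
  | @piH Γ C D i Kd hC hi hKd ihD =>
    intro A A' hM hA hA' Δ hCt hW
    have hL : HasLevel P Γ (.pi C D) (some s) := ⟨A, hM, hA⟩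
    obtain ⟨i', v, hC₁, hD, hr, -, hv, hp⟩ := hL.pi hG
    obtain rfl := hG.unique_sort hC hC₁
    have hBase := hCt.base hW
    have hTt : Typed P Δ (.sort v) (.sort s) := .ax' hW hv
    obtain ⟨X, hX, hCx⟩ := hCt.binder hR hW hC hi
    obtain ⟨UD, KD, hID⟩ :=
      ihD hD (.ax' (WF.cons hA.wf hC) hv) (.sort v) hCx (.cons hW hX)
    have hN := hR.neg hBase hTt
    have hID2 : Image P s (Γ.length + 2) _ _ (.sort v) _ _ := hID.shift hCR hX hN
    have hB1 := hBase.cons hN
    have hX1 := hX.weak hN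
    obtain ⟨hE, sE⟩ := hID2.elim hR (hB1.cons hX1) hv
    exact conv hM hA hA' hCt hW hp (.ax' hA.wf hv) (.sort v)
      (Image.ret hR hBase hTt (.prod hX1 hE hr) (.piH hX1 hi sE)
        ⟨trivial, trivial, hID2.rel⟩ (.nodeH _ hID2.comp))

end Vale.Agent.P340
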