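import Vale.Agent.P340.Metatheory

/-!
# P340: levels in generalized nondependent specifications
-/

universe u

namespace Vale.Agent.P340

open Relation

variable {S : Type u} {P : Spec S}

/-- Strongly normalizing, as accessibility. -/
def Tm.SN : Tm S → Prop := Acc fun x y => Step y x

/-- The level of an expression: the sort of its type, or `none` for an axiom-less sort as type. -/
def HasLevel (P : Spec S) (Γ : List (Tm S)) (M : Tm S) : Option S → Prop
  | some s => ∃ A, Typed P Γ M A ∧ Typed P Γ A (.sort s)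
  | none => ∃ u, Typed P Γ M (.sort u) ∧ ∀ t, ¬ P.Ax u t

/-- The successor level of a sort. -/
def SuccLevel (P : Spec S) (u : S) : Option S → Prop
  | some t => P.Ax u t
  | none => ∀ t, ¬ P.Ax u t

/-- Levels strictly above `s`. -/
def Above (P : Spec S) (s : S) : Option S → Prop
  | some i => TransGen P.Ax s i
  | none => True

theorem Spec.IsGND.ruleEq (hG : P.IsGND) {a b c : S} (h : P.Rule a b c) : c = b := (hG.rule h).1

theorem Spec.IsGND.ruleReach (hG : P.IsGND) {a b c : S} (h : P.Rule a b c) :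
    ReflTransGen P.Ax b a := (hG.rule h).2

theorem Spec.IsGND.unique (hG : P.IsGND) {Γ : List (Tm S)} {M A A' : Tm S}
    (h : Typed P Γ M A) (h' : Typed P Γ M A') : Conv A A' :=
  h.unique hG.functional hG.ruleEq h'

theorem Spec.IsGND.unique_sort (hG : P.IsGND) {Γ : List (Tm S)} {M : Tm S} {s t : S}
    (h : Typed P Γ M (.sort s)) (h' : Typed P Γ M (.sort t)) : s = t :=
  (hG.unique h h').sort_inj

theorem Spec.IsGND.sort_of_conv (hG : P.IsGND) {Γ : List (Tm S)} {A B : Tm S} {s t : S}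
    (hA : Typed P Γ A (.sort s)) (hB : Typed P Γ B (.sort t)) (h : Conv A B) : s = t := by
  obtain ⟨L, h1, h2⟩ := h.join
  exact hG.unique_sort (hA.steps h1) (hB.steps h2)

theorem Spec.IsGND.ax_of_conv (hG : P.IsGND) {Γ : List (Tm S)} {A : Tm S} {s u : S}
    (hA : Typed P Γ A (.sort s)) (h : Conv A (.sort u)) : P.Ax u s := by
  obtain ⟨s', ha, hc⟩ := (hA.steps h.steps_sort).gen_sort rfl
  exact hc.sort_inj ▸ ha

theorem exists_succLevel (P : Spec S) (u : S) : ∃ ℓ, SuccLevel P u ℓ := by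
  by_cases h : ∃ t, P.Ax u t
  · obtain ⟨t, ht⟩ := h
    exact ⟨some t, ht⟩
  · exact ⟨none, fun t ht => h ⟨t, ht⟩⟩

theorem SuccLevel.above {i s : S} {ℓ : Option S} (h : SuccLevel P i ℓ)
    (hi : ReflTransGen P.Ax s i) : Above P s ℓ := by
  cases ℓ with
  | none => trivial
  | some t => exact TransGen.tail' hi h

theorem SuccLevel.unique (hG : P.IsGND) {u : S} {ℓ ℓ' : Option S} (h : SuccLevel P u ℓ)
    (h' : SuccLevel P u ℓ') : ℓ = ℓ' := by
  cases ℓ with
  | none =>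
    cases ℓ' with
    | none => rfl
    | some t => exact absurd h' (h t)
  | some t =>
    cases ℓ' with
    | none => exact absurd h (h' t)
    | some t' => rw [hG.functional h h']

/-- An expression typed by a sort has the successor level of that sort. -/
theorem Typed.level_sort {Γ : List (Tm S)} {M : Tm S} {u : S} {ℓ : Option S}
    (h : Typed P Γ M (.sort u)) (hl : SuccLevel P u ℓ) : HasLevel P Γ M ℓ := by
  cases ℓ with
  | none => exact ⟨u, h, hl⟩
  | some t => exact ⟨.sort u, h, .ax' h.wf hl⟩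

theorem Typed.exists_level {Γ : List (Tm S)} {M A : Tm S} (h : Typed P Γ M A) :
    ∃ ℓ, HasLevel P Γ M ℓ := by
  rcases h.correct with ⟨u, rfl⟩ | ⟨s, hs⟩
  · obtain ⟨ℓ, hl⟩ := exists_succLevel P u
    exact ⟨ℓ, h.level_sort hl⟩
  · exact ⟨some s, A, h, hs⟩

theorem HasLevel.typed {Γ : List (Tm S)} {M : Tm S} {ℓ : Option S} (h : HasLevel P Γ M ℓ) :
    ∃ A, Typed P Γ M A := by
  cases ℓ with
  | none => obtain ⟨u, hu, -⟩ := h; exact ⟨_, hu⟩
  | some s => obtain ⟨A, hA, -⟩ := h; exact ⟨A, hA⟩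

theorem HasLevel.unique (hG : P.IsGND) {Γ : List (Tm S)} {M : Tm S} {ℓ ℓ' : Option S}
    (h : HasLevel P Γ M ℓ) (h' : HasLevel P Γ M ℓ') : ℓ = ℓ' := by
  cases ℓ with
  | none =>
    obtain ⟨u, hu, hn⟩ := h
    cases ℓ' with
    | none => rfl
    | some s =>
      obtain ⟨A, hA, hs⟩ := h'
      exact absurd (hG.ax_of_conv hs (hG.unique hA hu)) (hn s)
  | some s =>
    obtain ⟨A, hA, hs⟩ := h
    cases ℓ' with
    | none =>
      obtain ⟨u, hu, hn⟩ := h'
      exact absurd (hG.ax_of_conv hs (hG.unique hA hu)) (hn s)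
    | some t =>
      obtain ⟨B, hB, ht⟩ := h'
      rw [hG.sort_of_conv hs ht (hG.unique hA hB)]

theorem HasLevel.step {Γ : List (Tm S)} {M M' : Tm S} {ℓ : Option S} (h : HasLevel P Γ M ℓ)
    (hs : Step M M') : HasLevel P Γ M' ℓ := by
  cases ℓ with
  | none => obtain ⟨u, hu, hn⟩ := h; exact ⟨u, hu.step hs, hn⟩
  | some s => obtain ⟨A, hA, hA'⟩ := h; exact ⟨A, hA.step hs, hA'⟩

theorem HasLevel.var (hG : P.IsGND) {Γ : List (Tm S)} {n : ℕ} {ℓ : Option S}
    (h : HasLevel P Γ (.var n) ℓ) :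
    ∃ A i, At Γ n A ∧ Typed P Γ A (.sort i) ∧ ℓ = some i := by
  obtain ⟨T, hT⟩ := h.typed
  obtain ⟨A, hA, -⟩ := hT.gen_var rfl
  obtain ⟨i, hi⟩ := hA.typed hT.wf
  exact ⟨A, i, hA, hi, h.unique hG (ℓ' := some i) ⟨A, .var' hT.wf hA, hi⟩⟩

theorem HasLevel.sortExpr (hG : P.IsGND) {Γ : List (Tm S)} {v : S} {ℓ : Option S}
    (h : HasLevel P Γ (.sort v) ℓ) : ∃ u, P.Ax v u ∧ SuccLevel P u ℓ := by
  obtain ⟨T, hT⟩ := h.typed
  obtain ⟨u, ha, -⟩ := hT.gen_sort rfl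
  obtain ⟨ℓ', hl⟩ := exists_succLevel P u
  exact ⟨u, ha, h.unique hG ((Typed.ax' hT.wf ha).level_sort hl) ▸ hl⟩

theorem HasLevel.pi (hG : P.IsGND) {Γ : List (Tm S)} {C D : Tm S} {ℓ : Option S}
    (h : HasLevel P Γ (.pi C D) ℓ) :
    ∃ i u, Typed P Γ C (.sort i) ∧ Typed P (C :: Γ) D (.sort u) ∧ P.Rule i u u ∧
      ReflTransGen P.Ax u i ∧ SuccLevel P u ℓ ∧ Typed P Γ (.pi C D) (.sort u) := by
  obtain ⟨T, hT⟩ := h.typed
  obtain ⟨i, u, w, hC, hD, hr, -⟩ := hT.gen_pi rfl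
  obtain rfl := hG.ruleEq hr
  obtain ⟨ℓ', hl⟩ := exists_succLevel P w
  have hp := Typed.prod hC hD hr
  exact ⟨i, w, hC, hD, hr, hG.ruleReach hr, h.unique hG (hp.level_sort hl) ▸ hl, hp⟩

theorem HasLevel.lam (hG : P.IsGND) {Γ : List (Tm S)} {C b : Tm S} {ℓ : Option S}
    (h : HasLevel P Γ (.lam C b) ℓ) :
    ∃ B i s, ℓ = some s ∧ Typed P Γ C (.sort i) ∧ Typed P (C :: Γ) b B ∧
      Typed P (C :: Γ) B (.sort s) ∧ P.Rule i s s ∧ ReflTransGen P.Ax s i ∧
      Typed P Γ (.pi C B) (.sort s) ∧ Typed P Γ (.lam C b) (.pi C B) := by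
  obtain ⟨T, hT⟩ := h.typed
  obtain ⟨B, s, hb, hp, -⟩ := hT.gen_lam rfl
  obtain ⟨i, u, w, hC, hB, hr, hc⟩ := hp.gen_pi rfl
  obtain rfl := hG.ruleEq hr
  obtain rfl := hc.sort_inj
  have hl := Typed.lam hb hp
  exact ⟨B, i, w, h.unique hG (ℓ' := some w) ⟨_, hl, hp⟩, hC, hb, hB, hr, hG.ruleReach hr, hp, hl⟩

theorem HasLevel.app (hG : P.IsGND) {Γ : List (Tm S)} {f a : Tm S} {ℓ : Option S}
    (h : HasLevel P Γ (.app f a) ℓ) :
    ∃ C D i s, ℓ = some s ∧ Typed P Γ f (.pi C D) ∧ Typed P Γ a C ∧ Typed P Γ C (.sort i) ∧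
      Typed P (C :: Γ) D (.sort s) ∧ P.Rule i s s ∧ ReflTransGen P.Ax s i ∧
      Typed P Γ (.pi C D) (.sort s) := by
  obtain ⟨T, hT⟩ := h.typed
  obtain ⟨C, D, hf, ha, -⟩ := hT.gen_app rfl
  obtain ⟨i, u, w, hC, hD, hr⟩ := hf.pi_parts
  obtain rfl := hG.ruleEq hr
  exact ⟨C, D, i, w, h.unique hG (ℓ' := some w) ⟨_, .app hf ha, hD.inst ha⟩, hf, ha, hC, hD, hr,
    hG.ruleReach hr, .prod hC hD hr⟩

theorem HasLevel.none_normal (hG : P.IsGND) :
    ∀ {M : Tm S} {Γ : List (Tm S)}, HasLevel P Γ M none → ∀ M', ¬ Step M M' := by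
  intro M
  induction M with
  | var n => intro _ _ M' h'; cases h'
  | sort v => intro _ _ M' h'; cases h'
  | app f a _ _ =>
    intro Γ h
    obtain ⟨_, _, _, _, e, _⟩ := h.app hG
    cases e
  | lam C b _ _ =>
    intro Γ h
    obtain ⟨_, _, _, e, _⟩ := h.lam hG
    cases e
  | pi C D ihC ihD =>
    intro Γ h M' h'
    obtain ⟨i, u, hC, hD, -, hiu, hl, -⟩ := h.pi hG
    have hi : i = u := by
      rcases hiu.cases_head with e | ⟨c, hc, -⟩
      · exact e.symm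
      · exact absurd hc (hl c)
    subst hi
    cases h' with
    | piL _ hs => exact ihC (hC.level_sort hl) _ hs
    | piR _ hs => exact ihD (hD.level_sort hl) _ hs

theorem Tm.SN.of_normal {M : Tm S} (h : ∀ M', ¬ Step M M') : M.SN :=
  ⟨_, fun M' h' => absurd h' (h M')⟩

theorem Spec.IsGND.above_irrefl (hG : P.IsGND) {s : S} : ¬ Above P s (some s) := hG.acyclic s

theorem reach_succ (hG : P.IsGND) {u i s : S} (h : P.Ax u s) (h' : ReflTransGen P.Ax u i)
    (hne : i ≠ u) : ReflTransGen P.Ax s i := by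
  rcases h'.cases_head with e | ⟨c, hc, hci⟩
  · exact absurd e.symm hne
  · exact hG.functional h hc ▸ hci

end Vale.Agent.P340
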