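import Vale.Agent.P340.GND.Cases

/-!
# P340: levels without the rule `(s, s, s)` have no abstraction or application in their skeletons
-/

universe u

namespace Vale.Agent.P340

namespace Sk

/-- No `lam` and no `app`. -/
def NoLamApp : Sk → Prop
  | var _ => True
  | con => True
  | lam _ => False
  | tlam b => NoLamApp b
  | app _ _ => False
  | tapp f => NoLamApp f
  | node a b => NoLamApp a ∧ NoLamApp b

/-- The number of `tlam`. -/
def tlamCount : Sk → ℕ
  | var _ => 0
  | con => 0
  | lam b => tlamCount b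
  | tlam b => tlamCount b + 1
  | app f a => tlamCount f + tlamCount a
  | tapp f => tlamCount f
  | node a b => tlamCount a + tlamCount b

/-- Substituting variables and constants only. -/
def Flat (σ : ℕ → Sk) : Prop := ∀ n, σ n = con ∨ ∃ m, σ n = var m

theorem Flat.up {σ : ℕ → Sk} (h : Flat σ) : Flat (Sk.up σ) := by
  intro n
  cases n with
  | zero => exact .inr ⟨0, rfl⟩
  | succ n =>
    rcases h n with e | ⟨m, e⟩
    · exact .inl (by simp [Sk.up, lift, e, Sk.rename])
    · exact .inr ⟨m + 1, by simp [Sk.up, lift, e, Sk.rename]⟩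

theorem flat_subst (K : Sk) : ∀ {σ : ℕ → Sk}, Flat σ → K.NoLamApp →
    (K.subst σ).NoLamApp ∧ (K.subst σ).tlamCount = K.tlamCount := by
  induction K with
  | var n =>
    intro σ hσ _
    rcases hσ n with e | ⟨m, e⟩ <;> simp [Sk.subst, e, NoLamApp, tlamCount]
  | con => intro σ _ _; simp [Sk.subst, NoLamApp, tlamCount]
  | lam b _ => intro σ _ h; exact h.elim
  | tlam b ih =>
    intro σ hσ h
    obtain ⟨h1, h2⟩ := ih hσ.up h
    exact ⟨h1, by simp [Sk.subst, tlamCount, h2]⟩
  | app f a _ _ => intro σ _ h; exact h.elim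
  | tapp f ih =>
    intro σ hσ h
    obtain ⟨h1, h2⟩ := ih hσ h
    exact ⟨h1, by simp [Sk.subst, tlamCount, h2]⟩
  | node a b iha ihb =>
    intro σ hσ h
    obtain ⟨h1, h2⟩ := iha hσ h.1
    obtain ⟨h3, h4⟩ := ihb hσ.up h.2
    exact ⟨⟨h1, h3⟩, by simp [Sk.subst, tlamCount, h2, h4]⟩

theorem Red.noLamApp {K K' : Sk} (r : Red K K') :
    K.NoLamApp → K'.NoLamApp ∧ K'.tlamCount < K.tlamCount := by
  induction r with
  | beta b a => exact fun h => h.elim
  | tbeta b =>
    intro h
    obtain ⟨h1, h2⟩ := flat_subst b (σ := single con) (fun n => by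
      cases n with
      | zero => exact .inl rfl
      | succ n => exact .inr ⟨n, rfl⟩) h
    exact ⟨h1, by simp only [inst, tlamCount, h2]; omega⟩
  | lam _ _ => exact fun h => h.elim
  | tlam _ ih =>
    intro h
    obtain ⟨h1, h2⟩ := ih h
    exact ⟨h1, by simp only [tlamCount]; omega⟩
  | appL _ _ _ => exact fun h => h.elim
  | appR _ _ _ => exact fun h => h.elim
  | tapp _ ih => exact ih
  | nodeL b _ ih =>
    intro h
    obtain ⟨h1, h2⟩ := ih h.1
    exact ⟨⟨h1, h.2⟩, by simp only [tlamCount]; omega⟩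
  | nodeR a _ ih =>
    intro h
    obtain ⟨h1, h2⟩ := ih h.2
    exact ⟨⟨h.1, h1⟩, by simp only [tlamCount]; omega⟩

theorem NoLamApp.sn {K : Sk} (h : K.NoLamApp) : K.SN := by
  induction hn : K.tlamCount using Nat.strong_induction_on generalizing K with
  | _ n ih =>
    subst hn
    refine ⟨_, fun K' r => ?_⟩
    obtain ⟨h1, h2⟩ := Red.noLamApp r h
    exact ih _ h2 h1 rfl

end Sk

variable {S : Type u} {P : Spec S} {s : S}

theorem Skel.noLamApp (hG : P.IsGND) (hs : ¬ P.Rule s s s) {Γ : List (Tm S)} {M : Tm S} {K : Sk}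
    (h : Skel P s Γ M K) : HasLevel P Γ M (some s) → K.NoLamApp := by
  induction h with
  | var => exact fun _ => trivial
  | sort => exact fun _ => trivial
  | lamS hC _ _ =>
    intro hM
    obtain ⟨B, i, s', e, hC', -, -, hr, -⟩ := hM.lam hG
    injection e with e
    subst e
    obtain rfl := hG.unique_sort hC' hC
    exact absurd hr hs
  | lamH _ _ _ ih =>
    intro hM
    obtain ⟨B, i, s', e, -, hb, hB, -⟩ := hM.lam hG
    injection e with e
    subst e
    exact ih ⟨B, hb, hB⟩
  | appS hf _ hC _ _ _ _ =>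
    intro hM
    obtain ⟨C', D', i, s', e, hf', -, hC', -, hr, -⟩ := hM.app hG
    injection e with e
    subst e
    obtain rfl := hG.sort_of_conv hC' hC (hG.unique hf' hf).pi_inj.1
    exact absurd hr hs
  | appH _ _ _ _ _ ih =>
    intro hM
    obtain ⟨C', D', i, s', e, hf', -, -, -, -, -, hp⟩ := hM.app hG
    injection e with e
    subst e
    exact ih ⟨_, hf', hp⟩
  | piS hC hv _ _ ihC ihD =>
    intro hM
    obtain ⟨i, w, -, hD, -, -, hl, -⟩ := hM.pi hG
    exact ⟨ihC (hC.level_sort hv), ihD (hD.level_sort hl)⟩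
  | piH _ _ _ ihD =>
    intro hM
    obtain ⟨i, w, -, hD, -, -, hl, -⟩ := hM.pi hG
    exact ⟨trivial, ihD (hD.level_sort hl)⟩

/-- Without the rule `(s, s, s)` skeletons of level `s` are strongly normalizing. -/
theorem noLamCase : NoLamCaseSpec.{u} :=
  fun _ hG _ hs _ _ _ hM hK => (hK.noLamApp hG hs hM).sn

end Vale.Agent.P340
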