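import Vale.Agent.P340.GND.Cases
import Vale.Agent.P340.Untyped.ShapeSN

/-!
# P340: without the rule (t, s, s), skeletons of level s are shape-typed

The shape of a type of sort `s` is read off its normal form. Substitution cannot change it: the
head variable of a neutral normal type of sort `s` has sort `t`, and such variables are never
bound at level `s`.
-/

universe u

namespace Vale.Agent.P340.Shapes

open Relation

variable {S : Type u} {P : Spec S}

/-- A normal form. -/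
def IsNF (M : Tm S) : Prop := ∀ M', ¬ Step M M'

theorem IsNF.steps_eq {M N : Tm S} (h : IsNF M) (hs : Steps M N) : N = M := by
  induction hs with
  | refl => rfl
  | tail _ h' ih => subst ih; exact absurd h' (h _)

theorem IsNF.eq_of_conv {M N : Tm S} (hM : IsNF M) (hN : IsNF N) (h : Conv M N) : M = N := by
  obtain ⟨L, h1, h2⟩ := h.join
  rw [← hM.steps_eq h1, hN.steps_eq h2]

theorem isNF_var (n : ℕ) : IsNF (Tm.var n : Tm S) := fun _ h => nomatch h

theorem isNF_sort (v : S) : IsNF (Tm.sort v : Tm S) := fun _ h => nomatch h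

open Classical in
/-- The normal form, if there is one. -/
noncomputable def nf (A : Tm S) : Tm S :=
  if h : ∃ N, Steps A N ∧ IsNF N then h.choose else A

theorem nf_spec (hW : WeaklyNormalizing P) {Γ : List (Tm S)} {A T : Tm S} (h : Typed P Γ A T) :
    Steps A (nf A) ∧ IsNF (nf A) := by
  have hN : ∃ N, Steps A N ∧ IsNF N := hW A ⟨Γ, .inl ⟨T, h⟩⟩
  rw [nf, dif_pos hN]
  exact hN.choose_spec

theorem nf_of_isNF {A : Tm S} (h : IsNF A) : nf A = A := by
  have hN : ∃ N, Steps A N ∧ IsNF N := ⟨A, .refl, h⟩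
  rw [nf, dif_pos hN]
  exact h.steps_eq hN.choose_spec.1

theorem nf_congr (hW : WeaklyNormalizing P) {Γ Δ : List (Tm S)} {A B T U : Tm S}
    (hA : Typed P Γ A T) (hB : Typed P Δ B U) (h : Conv A B) : nf A = nf B := by
  obtain ⟨hA1, hA2⟩ := nf_spec hW hA
  obtain ⟨hB1, hB2⟩ := nf_spec hW hB
  exact hA2.eq_of_conv hB2 (hA1.conv.symm'.trans' (h.trans' hB1.conv))

theorem nf_pi (hW : WeaklyNormalizing P) {Γ : List (Tm S)} {C D T U : Tm S}
    (hp : Typed P Γ (.pi C D) T) (hC : Typed P Γ C U) {V : Tm S}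
    (hD : Typed P (C :: Γ) D V) : nf (.pi C D) = .pi (nf C) (nf D) := by
  obtain ⟨h1, h2⟩ := nf_spec hW hC
  obtain ⟨h3, h4⟩ := nf_spec hW hD
  have hn : IsNF (Tm.pi (nf C) (nf D)) := fun M' h => by
    cases h with
    | piL _ h => exact h2 _ h
    | piR _ h => exact h4 _ h
  obtain ⟨h5, h6⟩ := nf_spec hW hp
  exact h6.eq_of_conv hn (h5.conv.symm'.trans' (Steps.pi h1 h3).conv)

open Classical in
/-- The shape of a normal type of sort `s`. -/
noncomputable def shN (P : Spec S) (s : S) : List (Tm S) → Tm S → Shape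
  | Γ, .pi C D =>
      if Typed P Γ C (.sort s) then .arr (shN P s Γ C) (shN P s (C :: Γ) D)
      else .all (shN P s (C :: Γ) D)
  | _, .var _ => .atom
  | _, .sort _ => .atom
  | _, .app _ _ => .atom
  | _, .lam _ _ => .atom

/-- The shape of a type of sort `s`. -/
noncomputable def sh (P : Spec S) (s : S) (Γ : List (Tm S)) (A : Tm S) : Shape :=
  shN P s Γ (nf A)

/-- Variables of sort `t`, the type of `s`, go to variables. -/
def Mild (P : Spec S) (s : S) (σ : ℕ → Tm S) (Γ : List (Tm S)) : Prop :=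
  ∀ n A t, At Γ n A → P.Ax s t → Typed P Γ A (.sort t) → ∃ m, σ n = .var m

/-- An application spine with a variable at its head. -/
inductive VarHead : Tm S → Prop where
  | var (n : ℕ) : VarHead (.var n)
  | app {f : Tm S} (a : Tm S) : VarHead f → VarHead (.app f a)

theorem VarHead.step {M M' : Tm S} (h : VarHead M) : Step M M' → VarHead M' := by
  intro hs
  induction h generalizing M' with
  | var n => cases hs
  | @app f a hf ih =>
    cases hs with
    | beta A b N => cases hf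
    | appL _ h => exact .app _ (ih h)
    | appR _ h => exact .app _ hf

theorem VarHead.steps {M M' : Tm S} (h : VarHead M) (hs : Steps M M') : VarHead M' := by
  induction hs with
  | refl => exact h
  | tail _ h' ih => exact ih.step h'

theorem shN_varHead {s : S} {Γ : List (Tm S)} {M : Tm S} (h : VarHead M) :
    shN P s Γ M = .atom := by
  cases h <;> rfl

theorem shN_sort {s : S} {Γ : List (Tm S)} (v : S) : shN P s Γ (.sort v) = .atom := rfl

/-- The head of a neutral normal type of sort `s` is a variable of sort `t`. -/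
theorem varHead_subst (hG : P.IsGND) {s t : S} (ht : P.Ax s t) :
    ∀ {M : Tm S} {Γ : List (Tm S)} {σ : ℕ → Tm S} {T : Tm S}, IsNF M → Typed P Γ M T →
      Typed P Γ T (.sort t) → ((∀ v, ¬ Conv (.sort v) T) ∨ ∃ f a, M = .app f a) →
      (∀ A b, M ≠ .lam A b) → Mild P s σ Γ → VarHead (M.subst σ) := by
  intro M
  induction M with
  | var n =>
    intro Γ σ T _ hM hT _ _ hσ
    obtain ⟨A, hA, hc⟩ := hM.gen_var rfl
    obtain ⟨j, hj⟩ := hA.typed hM.wf
    obtain ⟨m, hm⟩ := hσ n A t hA ht (hG.sort_of_conv hj hT hc ▸ hj)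
    show VarHead (σ n)
    rw [hm]
    exact .var m
  | sort v =>
    intro Γ σ T _ hM _ h _ _
    obtain ⟨u, -, hc⟩ := hM.gen_sort rfl
    rcases h with h | ⟨f, a, h⟩
    · exact absurd hc (h u)
    · cases h
  | lam A b => intro Γ σ T _ _ _ _ h _; exact absurd rfl (h A b)
  | pi C D =>
    intro Γ σ T _ hM _ h _ _
    obtain ⟨i, u, w, -, -, -, hc⟩ := hM.gen_pi rfl
    rcases h with h | ⟨f, a, h⟩
    · exact absurd hc (h w)
    · cases h
  | app f a ihf _ =>
    intro Γ σ T hn hM hT _ _ hσ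
    obtain ⟨C, D, i, s', e, hf, -, -, -, -, -, hp⟩ :=
      (show HasLevel P Γ (.app f a) (some t) from ⟨T, hM, hT⟩).app hG
    injection e with e
    subst e
    exact .app _ (ihf (fun f' h => hn _ (.appL a h)) hf hp
      (.inl fun v => Conv.not_sort_pi) (fun A b h => hn _ (h ▸ Step.beta A b a)) hσ)

theorem Mild.up (hG : P.IsGND) {s : S} {σ : ℕ → Tm S} {Γ : List (Tm S)} {C : Tm S} {i : S}
    (h : Mild P s σ Γ) (hC : Typed P Γ C (.sort i)) : Mild P s (Tm.up σ) (C :: Γ) := by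
  intro n A t hn ht hA
  cases hn with
  | zero => exact ⟨0, rfl⟩
  | @succ A₀ _ m _ hm =>
    obtain ⟨j, hj⟩ := hm.typed hC.wf
    obtain ⟨k, hk⟩ := h m A₀ t hm ht (hG.unique_sort (Typed.weak hj hC) hA ▸ hj)
    exact ⟨k + 1, by show (σ m).lift = _; rw [hk]; rfl⟩

/-- Substitutions do not change shapes. -/
theorem shN_subst (hG : P.IsGND) (hW : WeaklyNormalizing P) {s : S} :
    ∀ {N : Tm S} {Γ Δ : List (Tm S)} {σ : ℕ → Tm S}, IsNF N → Typed P Γ N (.sort s) →
      WF P Δ → Sub P σ Γ Δ → Mild P s σ Γ → sh P s Δ (N.subst σ) = shN P s Γ N := by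
  intro N
  induction N with
  | var n =>
    intro Γ Δ σ _ hN _ _ hσ
    obtain ⟨A, hA, hc⟩ := hN.gen_var rfl
    obtain ⟨j, hj⟩ := hA.typed hN.wf
    obtain ⟨m, hm⟩ := hσ n A j hA (hG.ax_of_conv hj hc) hj
    show shN P s Δ (nf (σ n)) = _
    rw [hm, nf_of_isNF (isNF_var m)]
    rfl
  | sort v =>
    intro Γ Δ σ _ _ _ _ _
    show shN P s Δ (nf (.sort v)) = _
    rw [nf_of_isNF (isNF_sort v)]
    rfl
  | lam A b =>
    intro Γ Δ σ _ hN _ _ _
    obtain ⟨B, s', -, -, hc⟩ := hN.gen_lam rfl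
    exact absurd hc.symm' Conv.not_sort_pi
  | app f a =>
    intro Γ Δ σ hn hN hΔ hσ hm
    have hN' := hN.subst hΔ hσ
    obtain ⟨ℓ, hl⟩ := exists_succLevel P s
    have h' := hN.level_sort hl
    obtain ⟨_, _, _, t, e, _⟩ := h'.app hG
    subst e
    have hT : Typed P Γ (.sort s) (.sort t) := .ax' hN.wf hl
    exact shN_varHead ((varHead_subst hG hl hn hN hT (.inr ⟨f, a, rfl⟩) (fun _ _ h => nomatch h)
      hm).steps (nf_spec hW hN').1)
  | pi C D ihC ihD =>
    intro Γ Δ σ hn hN hΔ hσ hm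
    obtain ⟨i, u, w, hC, hD, hr, hc⟩ := hN.gen_pi rfl
    obtain rfl := hc.sort_inj
    obtain rfl := hG.ruleEq hr
    have hC' := hC.subst hΔ hσ
    have hW' : WF P (C.subst σ :: Δ) := .cons hΔ hC'
    have hD' := hD.subst hW' (hσ.up _ hC')
    have hp' : Typed P Δ (.pi (C.subst σ) (D.subst (Tm.up σ))) (.sort w) := .prod hC' hD' hr
    obtain ⟨hs, -⟩ := nf_spec hW hC'
    have hCn := hC'.steps hs
    have hcn : Conv (C.subst σ) (nf (C.subst σ)) := hs.conv
    have hsub : Sub P (Tm.up σ) (C :: Γ) (nf (C.subst σ) :: Δ) := fun n A hA =>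
      (hσ.up _ hC' n A hA).ctxConv hCn hcn
    have eD := ihD (fun _ h => hn _ (.piR C h)) hD (.cons hΔ hCn) hsub (hm.up hG hC)
    have hiff : Typed P Δ (nf (C.subst σ)) (.sort w) ↔ Typed P Γ C (.sort w) :=
      ⟨fun h => hG.unique_sort hCn h ▸ hC, fun h => hG.unique_sort hC h ▸ hCn⟩
    show shN P w Δ (nf (.pi (C.subst σ) (D.subst (Tm.up σ)))) = _
    rw [nf_pi hW hp' hC' hD', shN, shN]
    by_cases h : Typed P Γ C (.sort w)
    · have eC := ihC (fun _ h' => hn _ (.piL D h')) h hΔ hσ hm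
      rw [if_pos (hiff.2 h), if_pos h]
      exact congrArg₂ Shape.arr eC eD
    · rw [if_neg (mt hiff.1 h), if_neg h]
      exact congrArg Shape.all eD

theorem sh_conv (hW : WeaklyNormalizing P) {s : S} {Γ : List (Tm S)} {A B T U : Tm S}
    (hA : Typed P Γ A T) (hB : Typed P Γ B U) (h : Conv A B) : sh P s Γ A = sh P s Γ B := by
  rw [sh, sh, nf_congr hW hA hB h]

theorem sh_subst (hG : P.IsGND) (hW : WeaklyNormalizing P) {s : S} {Γ Δ : List (Tm S)}
    {A : Tm S} {σ : ℕ → Tm S} (hA : Typed P Γ A (.sort s)) (hΔ : WF P Δ) (hσ : Sub P σ Γ Δ)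
    (hm : Mild P s σ Γ) : sh P s Δ (A.subst σ) = sh P s Γ A := by
  obtain ⟨h1, h2⟩ := nf_spec hW hA
  have hN := hA.steps h1
  rw [sh_conv hW (hA.subst hΔ hσ) (hN.subst hΔ hσ) (h1.conv.subst σ)]
  exact shN_subst hG hW h2 hN hΔ hσ hm

theorem sh_lift (hG : P.IsGND) (hW : WeaklyNormalizing P) {s : S} {Γ : List (Tm S)}
    {A C : Tm S} {i : S} (hA : Typed P Γ A (.sort s)) (hC : Typed P Γ C (.sort i)) :
    sh P s (C :: Γ) A.lift = sh P s Γ A := by
  have hW' : WF P (C :: Γ) := .cons hC.wf hC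
  unfold Tm.lift
  rw [Tm.rename_eq_subst]
  refine sh_subst hG hW hA hW' (fun n B hB => ?_) fun n _ _ _ _ _ => ⟨n + 1, rfl⟩
  rw [← Tm.rename_eq_subst]
  exact .var' hW' (.succ _ hB)

theorem sh_pi (hG : P.IsGND) (hW : WeaklyNormalizing P) {s i : S} {Γ : List (Tm S)}
    {C D : Tm S} (hp : Typed P Γ (.pi C D) (.sort s)) (hC : Typed P Γ C (.sort i))
    (hD : Typed P (C :: Γ) D (.sort s)) :
    (i = s → sh P s Γ (.pi C D) = .arr (sh P s Γ C) (sh P s (C :: Γ) D)) ∧
      (i ≠ s → sh P s Γ (.pi C D) = .all (sh P s (C :: Γ) D)) := by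
  have hCn := hC.steps (nf_spec hW hC).1
  have hc : Conv C (nf C) := (nf_spec hW hC).1.conv
  have e : shN P s (nf C :: Γ) (nf D) = sh P s (C :: Γ) D := by
    have h := sh_subst hG hW (σ := fun n => Tm.var n) hD (.cons hC.wf hCn)
      (fun n A hA => by
        rw [Tm.subst_var]
        exact (Typed.var' (.cons hC.wf hC) hA).ctxConv hCn hc)
      (fun n _ _ _ _ _ => ⟨n, rfl⟩)
    rwa [Tm.subst_var] at h
  constructor
  · intro hi
    subst hi
    rw [sh, nf_pi hW hp hC hD, shN, if_pos hCn, e]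
    rfl
  · intro hi
    rw [sh, nf_pi hW hp hC hD, shN, if_neg fun h => hi (hG.unique_sort hCn h), e]

theorem sh_inst (hG : P.IsGND) (hW : WeaklyNormalizing P) {s i : S} {Γ : List (Tm S)}
    {C D a : Tm S} (hi : ∀ t, P.Ax s t → i ≠ t) (hC : Typed P Γ C (.sort i))
    (hD : Typed P (C :: Γ) D (.sort s)) (ha : Typed P Γ a C) :
    sh P s Γ (D.inst a) = sh P s (C :: Γ) D := by
  refine sh_subst hG hW hD ha.wf (fun n A hA => ?_) fun n A t hA ht hAt => ?_
  · cases hA with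
    | zero => show Typed P Γ a (C.lift.inst a); rwa [Tm.lift_subst_single]
    | succ _ hA =>
      show Typed P Γ (Tm.var _) (Tm.inst (Tm.lift _) a)
      rw [Tm.lift_subst_single]
      exact .var' ha.wf hA
  · cases hA with
    | zero => exact absurd (hG.unique_sort (Typed.weak hC hC) hAt) (hi t ht)
    | @succ A₀ _ m _ _ => exact ⟨m, rfl⟩

/-- The shapes of the declarations of sort `s`. -/
def Env (P : Spec S) (s : S) (Γ : List (Tm S)) (Θ : List Shape) : Prop :=
  ∀ n A, At Γ n A → Typed P Γ A (.sort s) → Θ[n]? = some (sh P s Γ A)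

theorem Env.cons (hG : P.IsGND) (hW : WeaklyNormalizing P) {s i : S} {Γ : List (Tm S)}
    {Θ : List Shape} {C : Tm S} {σ : Shape} (h : Env P s Γ Θ) (hC : Typed P Γ C (.sort i))
    (hσ : i = s → σ = sh P s Γ C) : Env P s (C :: Γ) (σ :: Θ) := by
  intro n A hA hAs
  cases hA with
  | zero =>
    have hi := hG.unique_sort (Typed.weak hC hC) hAs
    subst hi
    rw [sh_lift hG hW hC hC, ← hσ rfl]
    rfl
  | @succ A₀ _ m _ hm =>
    obtain ⟨j, hj⟩ := hm.typed hC.wf
    have hj' := hG.unique_sort (Typed.weak hj hC) hAs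
    subst hj'
    rw [sh_lift hG hW hj hC, ← h m A₀ hm hj]
    rfl

theorem exists_env (hG : P.IsGND) (hW : WeaklyNormalizing P) (s : S) {Γ : List (Tm S)}
    (h : WF P Γ) : ∃ Θ, Env P s Γ Θ := by
  induction h with
  | nil => exact ⟨[], fun n A hA => nomatch hA⟩
  | @cons Γ C i _ hC ih =>
    obtain ⟨Θ, hΘ⟩ := ih
    exact ⟨sh P s Γ C :: Θ, hΘ.cons hG hW hC fun _ => rfl⟩

theorem sh_of_conv_sort {s : S} {Γ : List (Tm S)} {A T : Tm S} {v : S}
    (hW : WeaklyNormalizing P) (hA : Typed P Γ A T) (h : Conv A (.sort v)) :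
    sh P s Γ A = .atom := by
  have hn : IsNF (Tm.sort v : Tm S) := isNF_sort v
  obtain ⟨h1, h2⟩ := nf_spec hW hA
  rw [sh, h2.eq_of_conv hn (h1.conv.symm'.trans' h)]
  rfl

/-- Skeletons are shape-typed. -/
theorem shapeTyped (hG : P.IsGND) (hW : WeaklyNormalizing P) {s : S}
    (hs : ∀ t, P.Ax s t → ¬ P.Rule t s s) {Γ : List (Tm S)} {M : Tm S} {K : Sk}
    (h : Skel P s Γ M K) :
    ∀ {Θ : List Shape}, Env P s Γ Θ → ∀ {A : Tm S}, Typed P Γ M A → Typed P Γ A (.sort s) →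
      ShapeTyped Θ K (sh P s Γ A) := by
  have hrule : ∀ {i : S}, P.Rule i s s → ∀ t, P.Ax s t → i ≠ t :=
    fun hr t ht e => hs t ht (e ▸ hr)
  induction h with
  | @var Γ n B hB hBs =>
    intro Θ hΘ A hM hA
    obtain ⟨B', hB', hc⟩ := hM.gen_var rfl
    obtain rfl := hB.unique hB'
    rw [← sh_conv hW hBs hA hc]
    exact .var (hΘ n B hB hBs)
  | @sort Γ v w hv hw =>
    intro Θ _ A hM hA
    obtain ⟨w', -, hc⟩ := hM.gen_sort rfl
    rw [sh_of_conv_sort hW hA hc.symm']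
    exact .con
  | @lamS Γ C b K hC _ ih =>
    intro Θ hΘ A hM hA
    obtain ⟨B, w, hb, hp, hc⟩ := hM.gen_lam rfl
    obtain rfl := hG.sort_of_conv hp hA hc
    obtain ⟨i, u, z, -, hB, hr, hc'⟩ := hp.gen_pi rfl
    obtain rfl := hc'.sort_inj
    obtain rfl := hG.ruleEq hr
    rw [← sh_conv hW hp hA hc, (sh_pi hG hW hp hC hB).1 rfl]
    exact .lam (ih (hΘ.cons hG hW hC fun _ => rfl) hb hB)
  | @lamH Γ C b i K hC hi _ ih =>
    intro Θ hΘ A hM hA
    obtain ⟨B, w, hb, hp, hc⟩ := hM.gen_lam rfl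
    obtain rfl := hG.sort_of_conv hp hA hc
    obtain ⟨_, u, z, -, hB, hr, hc'⟩ := hp.gen_pi rfl
    obtain rfl := hc'.sort_inj
    obtain rfl := hG.ruleEq hr
    have hne : i ≠ z := fun e => hG.acyclic z (e ▸ hi)
    rw [← sh_conv hW hp hA hc, (sh_pi hG hW hp hC hB).2 hne]
    exact .tlam (ih (hΘ.cons hG hW hC fun e => absurd e hne) hb hB)
  | @appS Γ f a C D Kf Ka hf ha hC _ _ ihf iha =>
    intro Θ hΘ A hM hA
    obtain ⟨i, u, w, hC', hD, hr⟩ := hf.pi_parts
    obtain rfl := hG.unique_sort hC hC'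
    obtain rfl := hG.ruleEq hr
    have hc : Conv (D.inst a) A := hG.unique (.app hf ha) hM
    obtain rfl : w = s := hG.sort_of_conv (hD.inst ha) hA hc
    have hp : Typed P Γ (.pi C D) (.sort w) := .prod hC hD hr
    rw [← sh_conv hW (hD.inst ha) hA hc, sh_inst hG hW (hrule hr) hC hD ha]
    refine .app ?_ (iha hΘ ha hC)
    rw [← (sh_pi hG hW hp hC hD).1 rfl]
    exact ihf hΘ hf hp
  | @appH Γ f a C D i Kf hf ha hC hi _ ihf =>
    intro Θ hΘ A hM hA
    obtain ⟨i', u, w, hC', hD, hr⟩ := hf.pi_parts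
    obtain rfl := hG.unique_sort hC hC'
    obtain rfl := hG.ruleEq hr
    have hc : Conv (D.inst a) A := hG.unique (.app hf ha) hM
    obtain rfl : w = s := hG.sort_of_conv (hD.inst ha) hA hc
    have hp : Typed P Γ (.pi C D) (.sort w) := .prod hC hD hr
    have hne : i ≠ w := fun e => hG.acyclic w (e ▸ hi)
    rw [← sh_conv hW (hD.inst ha) hA hc, sh_inst hG hW (hrule hr) hC hD ha]
    refine .tapp ?_
    rw [← (sh_pi hG hW hp hC hD).2 hne]
    exact ihf hΘ hf hp
  | @piS Γ C D v Kc Kd hC hv _ _ ihC ihD =>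
    intro Θ hΘ A hM hA
    obtain ⟨i, u, w, -, hD, hr, hc⟩ := hM.gen_pi rfl
    obtain rfl := hG.ruleEq hr
    rw [sh_of_conv_sort hW hA hc.symm']
    have hu : P.Ax w s := hG.ax_of_conv hA hc.symm'
    have hsv : Typed P Γ (.sort v) (.sort s) := .ax' hC.wf hv
    refine .node (σ := sh P s Γ C) ?_ ?_
    · rw [← sh_of_conv_sort (s := s) hW hsv Conv.rfl]
      exact ihC hΘ hC hsv
    · have hsw : Typed P (C :: Γ) (.sort w) (.sort s) := .ax' hD.wf hu
      rw [← sh_of_conv_sort (s := s) hW hsw Conv.rfl]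
      exact ihD (hΘ.cons hG hW hC fun _ => rfl) hD hsw
  | @piH Γ C D j Kd hC _ _ ihD =>
    intro Θ hΘ A hM hA
    obtain ⟨i, u, w, -, hD, hr, hc⟩ := hM.gen_pi rfl
    obtain rfl := hG.ruleEq hr
    rw [sh_of_conv_sort hW hA hc.symm']
    have hu : P.Ax w s := hG.ax_of_conv hA hc.symm'
    refine .node (σ := sh P s Γ C) .con ?_
    have hsw : Typed P (C :: Γ) (.sort w) (.sort s) := .ax' hD.wf hu
    rw [← sh_of_conv_sort (s := s) hW hsw Conv.rfl]
    exact ihD (hΘ.cons hG hW hC fun _ => rfl) hD hsw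

end Vale.Agent.P340.Shapes

namespace Vale.Agent.P340

theorem shapeCase : ShapeCaseSpec.{u} := by
  intro S P hG hW s hs Γ M K hM hK
  obtain ⟨A, hA, hA'⟩ := hM
  obtain ⟨Θ, hΘ⟩ := Shapes.exists_env hG hW s hA.wf
  exact shapeSN _ _ _ (Shapes.shapeTyped hG hW hs hK hΘ hA hA')

end Vale.Agent.P340
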