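import Vale.Agent.P340.GND.Level
import Vale.Agent.P340.Untyped.Basic

/-!
# P340: the skeleton of an expression at a level, and SN from SN of skeletons
-/

universe u

namespace Vale.Agent.P340

open Relation

variable {S : Type u} {P : Spec S} {s : S}

/-- `Skel P s Γ M K`: `K` is the level-`s` skeleton of `M`. -/
inductive Skel (P : Spec S) (s : S) : List (Tm S) → Tm S → Sk → Prop where
  | var {Γ : List (Tm S)} {n : ℕ} {A : Tm S} :
      At Γ n A → Typed P Γ A (.sort s) → Skel P s Γ (.var n) (.var n)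
  | sort {Γ : List (Tm S)} {v u : S} : P.Ax v u → P.Ax u s → Skel P s Γ (.sort v) .con
  | lamS {Γ : List (Tm S)} {C b : Tm S} {K : Sk} :
      Typed P Γ C (.sort s) → Skel P s (C :: Γ) b K → Skel P s Γ (.lam C b) (.lam K)
  | lamH {Γ : List (Tm S)} {C b : Tm S} {i : S} {K : Sk} :
      Typed P Γ C (.sort i) → TransGen P.Ax s i → Skel P s (C :: Γ) b K →
        Skel P s Γ (.lam C b) (.tlam K)
  | appS {Γ : List (Tm S)} {f a C D : Tm S} {Kf Ka : Sk} :
      Typed P Γ f (.pi C D) → Typed P Γ a C → Typed P Γ C (.sort s) →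
        Skel P s Γ f Kf → Skel P s Γ a Ka → Skel P s Γ (.app f a) (.app Kf Ka)
  | appH {Γ : List (Tm S)} {f a C D : Tm S} {i : S} {Kf : Sk} :
      Typed P Γ f (.pi C D) → Typed P Γ a C → Typed P Γ C (.sort i) → TransGen P.Ax s i →
        Skel P s Γ f Kf → Skel P s Γ (.app f a) (.tapp Kf)
  | piS {Γ : List (Tm S)} {C D : Tm S} {v : S} {Kc Kd : Sk} :
      Typed P Γ C (.sort v) → P.Ax v s → Skel P s Γ C Kc → Skel P s (C :: Γ) D Kd →
        Skel P s Γ (.pi C D) (.node Kc Kd)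
  | piH {Γ : List (Tm S)} {C D : Tm S} {i : S} {Kd : Sk} :
      Typed P Γ C (.sort i) → ReflTransGen P.Ax s i → Skel P s (C :: Γ) D Kd →
        Skel P s Γ (.pi C D) (.node .con Kd)

theorem Skel.rename {Γ : List (Tm S)} {M : Tm S} {K : Sk} (h : Skel P s Γ M K) :
    ∀ {Δ : List (Tm S)} {ξ : ℕ → ℕ}, WF P Δ → Ren ξ Γ Δ →
      Skel P s Δ (M.rename ξ) (K.rename ξ) := by
  have up : ∀ ξ : ℕ → ℕ, Sk.upRen ξ = Tm.upRen ξ := fun ξ => by funext n; cases n <;> rfl
  induction h with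
  | var ha hA => exact fun hΔ hξ => .var (hξ _ _ ha) (hA.rename hΔ hξ)
  | sort h₁ h₂ => exact fun _ _ => .sort h₁ h₂
  | lamS hC _ ih =>
    intro Δ ξ hΔ hξ
    refine .lamS (hC.rename hΔ hξ) ?_
    rw [up]
    exact ih (.cons hΔ (hC.rename hΔ hξ)) (hξ.up _)
  | lamH hC hi _ ih =>
    intro Δ ξ hΔ hξ
    refine .lamH (hC.rename hΔ hξ) hi ?_
    rw [up]
    exact ih (.cons hΔ (hC.rename hΔ hξ)) (hξ.up _)
  | appS hf ha hC _ _ ihf iha =>
    exact fun hΔ hξ => .appS (hf.rename hΔ hξ) (ha.rename hΔ hξ) (hC.rename hΔ hξ) (ihf hΔ hξ) (iha hΔ hξ)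
  | appH hf ha hC hi _ ihf =>
    exact fun hΔ hξ => .appH (hf.rename hΔ hξ) (ha.rename hΔ hξ) (hC.rename hΔ hξ) hi (ihf hΔ hξ)
  | piS hC hv _ _ ihC ihD =>
    intro Δ ξ hΔ hξ
    refine .piS (hC.rename hΔ hξ) hv (ihC hΔ hξ) ?_
    rw [up]
    exact ihD (.cons hΔ (hC.rename hΔ hξ)) (hξ.up _)
  | piH hC hi _ ih =>
    intro Δ ξ hΔ hξ
    refine .piH (hC.rename hΔ hξ) hi ?_
    rw [up]
    exact ih (.cons hΔ (hC.rename hΔ hξ)) (hξ.up _)

theorem Skel.subst (hG : P.IsGND) {Γ : List (Tm S)} {M : Tm S} {K : Sk} (h : Skel P s Γ M K) :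
    ∀ {Δ : List (Tm S)} {σ : ℕ → Tm S} {κ : ℕ → Sk}, WF P Δ → Sub P σ Γ Δ →
      (∀ n A, At Γ n A → Typed P Γ A (.sort s) → Skel P s Δ (σ n) (κ n)) →
        Skel P s Δ (M.subst σ) (K.subst κ) := by
  have up : ∀ {Γ Δ : List (Tm S)} {σ : ℕ → Tm S} {κ : ℕ → Sk} {C : Tm S} {i : S},
      Typed P Γ C (.sort i) → Sub P σ Γ Δ → Typed P Δ (C.subst σ) (.sort i) →
      (∀ n A, At Γ n A → Typed P Γ A (.sort s) → Skel P s Δ (σ n) (κ n)) →
      ∀ n A, At (C :: Γ) n A → Typed P (C :: Γ) A (.sort s) →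
        Skel P s (C.subst σ :: Δ) (Tm.up σ n) (Sk.up κ n) := by
    intro Γ Δ σ κ C i hC hσ hC' hκ n A hn hA
    have hW : WF P (C.subst σ :: Δ) := .cons hC'.wf hC'
    cases hn with
    | zero =>
      refine .var (.zero _ _) ?_
      rw [← Tm.lift_subst]
      exact hA.subst hW (hσ.up _ hC')
    | @succ A₀ _ m _ hm =>
      obtain ⟨j, hj⟩ := hm.typed hC.wf
      have e : j = s := hG.unique_sort (Typed.weak hj hC) hA
      exact (hκ m A₀ hm (e ▸ hj)).rename hW WF.ren_succ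
  induction h with
  | var ha hA => exact fun _ _ hκ => hκ _ _ ha hA
  | sort h₁ h₂ => exact fun _ _ _ => .sort h₁ h₂
  | lamS hC _ ih =>
    intro Δ σ κ hΔ hσ hκ
    have hC' := hC.subst hΔ hσ
    exact .lamS hC' (ih (.cons hΔ hC') (hσ.up _ hC') (up hC hσ hC' hκ))
  | lamH hC hi _ ih =>
    intro Δ σ κ hΔ hσ hκ
    have hC' := hC.subst hΔ hσ
    exact .lamH hC' hi (ih (.cons hΔ hC') (hσ.up _ hC') (up hC hσ hC' hκ))
  | appS hf ha hC _ _ ihf iha =>
    exact fun hΔ hσ hκ => .appS (hf.subst hΔ hσ) (ha.subst hΔ hσ) (hC.subst hΔ hσ) (ihf hΔ hσ hκ)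
      (iha hΔ hσ hκ)
  | appH hf ha hC hi _ ihf =>
    exact fun hΔ hσ hκ => .appH (hf.subst hΔ hσ) (ha.subst hΔ hσ) (hC.subst hΔ hσ) hi (ihf hΔ hσ hκ)
  | piS hC hv _ _ ihC ihD =>
    intro Δ σ κ hΔ hσ hκ
    have hC' := hC.subst hΔ hσ
    exact .piS hC' hv (ihC hΔ hσ hκ) (ihD (.cons hΔ hC') (hσ.up _ hC') (up hC hσ hC' hκ))
  | piH hC hi _ ih =>
    intro Δ σ κ hΔ hσ hκ
    have hC' := hC.subst hΔ hσ
    exact .piH hC' hi (ih (.cons hΔ hC') (hσ.up _ hC') (up hC hσ hC' hκ))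

theorem Skel.ctxConv (hG : P.IsGND) {Γ : List (Tm S)} {A A' M : Tm S} {i : S} {K : Sk}
    (h : Skel P s (A :: Γ) M K) (hA : Typed P Γ A (.sort i)) (hA' : Typed P Γ A' (.sort i))
    (hc : Conv A A') : Skel P s (A' :: Γ) M K := by
  have hW : WF P (A' :: Γ) := .cons hA'.wf hA'
  have := h.subst hG (σ := fun n => Tm.var n) (κ := fun n => Sk.var n) hW
    (fun n B hB => by
      rw [Tm.subst_var]
      cases hB with
      | zero => exact .conv (.var hA') (.weak hA hA') ((hc.rename _).symm')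
      | succ _ hB => exact .var' hW (.succ _ hB))
    (fun n B hB hBs => by
      cases hB with
      | zero =>
        have e : i = s := hG.unique_sort (Typed.weak hA hA) hBs
        exact .var (.zero _ _) (e ▸ Typed.weak hA' hA')
      | @succ B₀ _ m _ hB =>
        obtain ⟨j, hj⟩ := hB.typed hA.wf
        have e : j = s := hG.unique_sort (Typed.weak hj hA) hBs
        exact .var (.succ _ hB) (e ▸ Typed.weak hj hA'))
  rwa [Tm.subst_var, show (fun n => Sk.var n) = Sk.var from rfl, Sk.subst_var] at this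

theorem Skel.inst (hG : P.IsGND) {Γ : List (Tm S)} {A b a : Tm S} {K Ka : Sk} {i : S}
    (h : Skel P s (A :: Γ) b K) (hA : Typed P Γ A (.sort i)) (ha : Typed P Γ a A)
    (hk : i = s → Skel P s Γ a Ka) : Skel P s Γ (b.inst a) (K.inst Ka) :=
  h.subst hG ha.wf
    (fun n C hC => by
      cases hC with
      | zero => show Typed P Γ a (A.lift.inst a); rwa [Tm.lift_subst_single]
      | succ _ hC =>
        show Typed P Γ (Tm.var _) (Tm.inst (Tm.lift _) a)
        rw [Tm.lift_subst_single]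
        exact .var' ha.wf hC)
    (fun n C hC hCs => by
      cases hC with
      | zero => exact hk (hG.unique_sort (Typed.weak hA hA) hCs)
      | @succ C₀ _ m _ hC =>
        obtain ⟨j, hj⟩ := hC.typed ha.wf
        have e : j = s := hG.unique_sort (Typed.weak hj hA) hCs
        exact .var hC (e ▸ hj))

theorem Skel.con_sort {Γ : List (Tm S)} {M : Tm S} (h : Skel P s Γ M .con) : ∃ v, M = .sort v := by
  cases h with
  | sort => exact ⟨_, rfl⟩

theorem Skel.exists_of_level (hG : P.IsGND) :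
    ∀ {M : Tm S} {Γ : List (Tm S)}, HasLevel P Γ M (some s) → ∃ K, Skel P s Γ M K := by
  intro M
  induction M with
  | var n =>
    intro Γ h
    obtain ⟨A, i, hA, hi, e⟩ := h.var hG
    injection e with e
    subst e
    exact ⟨_, .var hA hi⟩
  | sort v =>
    intro Γ h
    obtain ⟨u, h₁, h₂⟩ := h.sortExpr hG
    exact ⟨_, .sort h₁ h₂⟩
  | app f a ihf iha =>
    intro Γ h
    obtain ⟨C, D, i, s', e, hf, ha, hC, -, -, hr, hp⟩ := h.app hG
    injection e with e
    subst e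
    obtain ⟨Kf, hKf⟩ := ihf ⟨_, hf, hp⟩
    rcases reflTransGen_iff_eq_or_transGen.1 hr with rfl | hi
    · obtain ⟨Ka, hKa⟩ := iha ⟨C, ha, hC⟩
      exact ⟨_, .appS hf ha hC hKf hKa⟩
    · exact ⟨_, .appH hf ha hC hi hKf⟩
  | lam C b _ ihb =>
    intro Γ h
    obtain ⟨B, i, s', e, hC, hb, hB, -, hr, -, -⟩ := h.lam hG
    injection e with e
    subst e
    obtain ⟨K, hK⟩ := ihb ⟨B, hb, hB⟩
    rcases reflTransGen_iff_eq_or_transGen.1 hr with rfl | hi
    · exact ⟨_, .lamS hC hK⟩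
    · exact ⟨_, .lamH hC hi hK⟩
  | pi C D ihC ihD =>
    intro Γ h
    obtain ⟨i, v, hC, hD, -, hr, hl, -⟩ := h.pi hG
    obtain ⟨Kd, hKd⟩ := ihD (hD.level_sort hl)
    by_cases hi : i = v
    · subst hi
      obtain ⟨Kc, hKc⟩ := ihC (hC.level_sort hl)
      exact ⟨_, .piS hC hl hKc hKd⟩
    · exact ⟨_, .piH hC (reach_succ hG hl hr hi) hKd⟩

/-- Steps in components erased by the skeleton. -/
inductive CompStep : Sk → Tm S → Tm S → Prop where
  | lamL {K : Sk} {C C' : Tm S} (b : Tm S) : Step C C' → CompStep (.lam K) (.lam C b) (.lam C' b)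
  | lamR {K : Sk} (C : Tm S) {b b' : Tm S} :
      CompStep K b b' → CompStep (.lam K) (.lam C b) (.lam C b')
  | tlamL {K : Sk} {C C' : Tm S} (b : Tm S) :
      Step C C' → CompStep (.tlam K) (.lam C b) (.lam C' b)
  | tlamR {K : Sk} (C : Tm S) {b b' : Tm S} :
      CompStep K b b' → CompStep (.tlam K) (.lam C b) (.lam C b')
  | appL {Kf Ka : Sk} {f f' : Tm S} (a : Tm S) :
      CompStep Kf f f' → CompStep (.app Kf Ka) (.app f a) (.app f' a)
  | appR {Kf Ka : Sk} (f : Tm S) {a a' : Tm S} :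
      CompStep Ka a a' → CompStep (.app Kf Ka) (.app f a) (.app f a')
  | tappL {Kf : Sk} {f f' : Tm S} (a : Tm S) :
      CompStep Kf f f' → CompStep (.tapp Kf) (.app f a) (.app f' a)
  | tappR {Kf : Sk} (f : Tm S) {a a' : Tm S} :
      Step a a' → CompStep (.tapp Kf) (.app f a) (.app f a')
  | piL {Kd : Sk} {C C' : Tm S} (D : Tm S) :
      Step C C' → CompStep (.node .con Kd) (.pi C D) (.pi C' D)
  | piRec {Kc Kd : Sk} {C C' : Tm S} (D : Tm S) :
      Kc ≠ .con → CompStep Kc C C' → CompStep (.node Kc Kd) (.pi C D) (.pi C' D)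
  | piR {Kc Kd : Sk} (C : Tm S) {D D' : Tm S} :
      CompStep Kd D D' → CompStep (.node Kc Kd) (.pi C D) (.pi C D')

theorem Skel.lam_inv {Γ : List (Tm S)} {C b : Tm S} {K : Sk} (h : Skel P s Γ (.lam C b) K) :
    (∃ Kb, K = .lam Kb ∧ Typed P Γ C (.sort s) ∧ Skel P s (C :: Γ) b Kb) ∨
      ∃ Kb i, K = .tlam Kb ∧ Typed P Γ C (.sort i) ∧ TransGen P.Ax s i ∧
        Skel P s (C :: Γ) b Kb := by
  cases h with
  | lamS hC hb => exact .inl ⟨_, rfl, hC, hb⟩
  | lamH hC hi hb => exact .inr ⟨_, _, rfl, hC, hi, hb⟩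

theorem Skel.step (hG : P.IsGND) {Γ : List (Tm S)} {M : Tm S} {K : Sk} (h : Skel P s Γ M K) :
    ∀ {M' : Tm S}, Step M M' →
      ∃ K', Skel P s Γ M' K' ∧ (Sk.Red K K' ∨ (K' = K ∧ CompStep K M M')) := by
  induction h with
  | var => intro M' h'; cases h'
  | sort => intro M' h'; cases h'
  | lamS hC hb ih =>
    intro M' h'
    cases h' with
    | lamL _ hs =>
      exact ⟨_, .lamS (hC.step hs) (hb.ctxConv hG hC (hC.step hs) (EqvGen.rel _ _ hs)),
        .inr ⟨rfl, .lamL _ hs⟩⟩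
    | lamR _ hs =>
      obtain ⟨K', hK', hh⟩ := ih hs
      refine ⟨_, .lamS hC hK', ?_⟩
      rcases hh with hr | ⟨rfl, hc⟩
      · exact .inl (.lam hr)
      · exact .inr ⟨rfl, .lamR _ hc⟩
  | lamH hC hi hb ih =>
    intro M' h'
    cases h' with
    | lamL _ hs =>
      exact ⟨_, .lamH (hC.step hs) hi (hb.ctxConv hG hC (hC.step hs) (EqvGen.rel _ _ hs)),
        .inr ⟨rfl, .tlamL _ hs⟩⟩
    | lamR _ hs =>
      obtain ⟨K', hK', hh⟩ := ih hs
      refine ⟨_, .lamH hC hi hK', ?_⟩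
      rcases hh with hr | ⟨rfl, hc⟩
      · exact .inl (.tlam hr)
      · exact .inr ⟨rfl, .tlamR _ hc⟩
  | @appS Γ f a C D Kf Ka hf ha hC hsf hsa ihf iha =>
    intro M' h'
    cases h' with
    | beta A₀ b _ =>
      obtain ⟨B₀, s₀, hb₀, hp, hc⟩ := hf.gen_lam rfl
      obtain ⟨j, hj⟩ := hp.pi_dom rfl
      have hjs : j = s := hG.sort_of_conv hj hC hc.pi_inj.1
      rcases hsf.lam_inv with ⟨Kb, rfl, hA₀, hKb⟩ | ⟨Kb, i, -, hA₀, hi, -⟩
      · exact ⟨_, hKb.inst hG hA₀ (.conv ha hA₀ hc.pi_inj.1.symm') fun _ => hsa, .inl (.beta _ _)⟩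
      · have e : i = s := (hG.unique_sort hA₀ hj).trans hjs
        exact absurd (e ▸ hi) (hG.acyclic s)
    | appL _ hs =>
      obtain ⟨K', hK', hh⟩ := ihf hs
      refine ⟨_, .appS (hf.step hs) ha hC hK' hsa, ?_⟩
      rcases hh with hr | ⟨rfl, hc⟩
      · exact .inl (.appL _ hr)
      · exact .inr ⟨rfl, .appL _ hc⟩
    | appR _ hs =>
      obtain ⟨K', hK', hh⟩ := iha hs
      refine ⟨_, .appS hf (ha.step hs) hC hsf hK', ?_⟩
      rcases hh with hr | ⟨rfl, hc⟩
      · exact .inl (.appR _ hr)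
      · exact .inr ⟨rfl, .appR _ hc⟩
  | @appH Γ f a C D i Kf hf ha hC hi hsf ihf =>
    intro M' h'
    cases h' with
    | beta A₀ b _ =>
      obtain ⟨B₀, s₀, hb₀, hp, hc⟩ := hf.gen_lam rfl
      obtain ⟨j, hj⟩ := hp.pi_dom rfl
      have hji : j = i := hG.sort_of_conv hj hC hc.pi_inj.1
      rcases hsf.lam_inv with ⟨Kb, -, hA₀, -⟩ | ⟨Kb, i', rfl, hA₀, hi', hKb⟩
      · exact absurd ((hG.unique_sort hA₀ hj).trans hji ▸ hi) (hG.acyclic i)
      · exact ⟨_, hKb.inst hG hA₀ (.conv ha hA₀ hc.pi_inj.1.symm')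
          fun e => absurd (e ▸ hi') (hG.acyclic s), .inl (.tbeta _)⟩
    | appL _ hs =>
      obtain ⟨K', hK', hh⟩ := ihf hs
      refine ⟨_, .appH (hf.step hs) ha hC hi hK', ?_⟩
      rcases hh with hr | ⟨rfl, hc⟩
      · exact .inl (.tapp hr)
      · exact .inr ⟨rfl, .tappL _ hc⟩
    | appR _ hs => exact ⟨_, .appH hf (ha.step hs) hC hi hsf, .inr ⟨rfl, .tappR _ hs⟩⟩
  | piS hC hv hsC hsD ihC ihD =>
    intro M' h'
    cases h' with
    | piL _ hs =>
      obtain ⟨K', hK', hh⟩ := ihC hs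
      refine ⟨_, .piS (hC.step hs) hv hK'
        (hsD.ctxConv hG hC (hC.step hs) (EqvGen.rel _ _ hs)), ?_⟩
      rcases hh with hr | ⟨rfl, hc⟩
      · exact .inl (.nodeL _ hr)
      · refine .inr ⟨rfl, .piRec _ (fun e => ?_) hc⟩
        obtain ⟨v', rfl⟩ := (e ▸ hsC).con_sort
        cases hs
    | piR _ hs =>
      obtain ⟨K', hK', hh⟩ := ihD hs
      refine ⟨_, .piS hC hv hsC hK', ?_⟩
      rcases hh with hr | ⟨rfl, hc⟩
      · exact .inl (.nodeR _ hr)
      · exact .inr ⟨rfl, .piR _ hc⟩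
  | piH hC hi hsD ihD =>
    intro M' h'
    cases h' with
    | piL _ hs =>
      exact ⟨_, .piH (hC.step hs) hi (hsD.ctxConv hG hC (hC.step hs) (EqvGen.rel _ _ hs)),
        .inr ⟨rfl, .piL _ hs⟩⟩
    | piR _ hs =>
      obtain ⟨K', hK', hh⟩ := ihD hs
      refine ⟨_, .piH hC hi hK', ?_⟩
      rcases hh with hr | ⟨rfl, hc⟩
      · exact .inl (.nodeR _ hr)
      · exact .inr ⟨rfl, .piR _ hc⟩

/-- The erased components are strongly normalizing. -/
inductive Match : Sk → Tm S → Prop where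
  | var (n : ℕ) : Match (.var n) (.var n)
  | sort (v : S) : Match .con (.sort v)
  | lam {K : Sk} {C b : Tm S} : C.SN → Match K b → Match (.lam K) (.lam C b)
  | tlam {K : Sk} {C b : Tm S} : C.SN → Match K b → Match (.tlam K) (.lam C b)
  | app {Kf Ka : Sk} {f a : Tm S} : Match Kf f → Match Ka a → Match (.app Kf Ka) (.app f a)
  | tapp {Kf : Sk} {f a : Tm S} : Match Kf f → a.SN → Match (.tapp Kf) (.app f a)
  | nodeH {Kd : Sk} {C D : Tm S} : C.SN → Match Kd D → Match (.node .con Kd) (.pi C D)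
  | nodeS {Kc Kd : Sk} {C D : Tm S} :
      Kc ≠ .con → Match Kc C → Match Kd D → Match (.node Kc Kd) (.pi C D)

theorem acc_pair {α β γ : Type*} {r : α → α → Prop} {q : β → β → Prop} {t : γ → γ → Prop}
    (F : α → β → γ) (hinv : ∀ {z a b}, t z (F a b) →
      (∃ a', z = F a' b ∧ r a' a) ∨ ∃ b', z = F a b' ∧ q b' b) :
    ∀ {a}, Acc r a → ∀ {b}, Acc q b → Acc t (F a b) := by
  intro a ha
  induction ha with
  | intro a _ iha =>
    intro b hb
    induction hb with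
    | intro b hb' ihb =>
      refine ⟨_, fun z hz => ?_⟩
      rcases hinv hz with ⟨a', rfl, hr⟩ | ⟨b', rfl, hq⟩
      · exact iha a' hr ⟨b, hb'⟩
      · exact ihb b' hq

theorem Match.acc {K : Sk} {M : Tm S} (h : Match K M) :
    Acc (fun x y => CompStep K y x) M := by
  induction h with
  | var n => exact ⟨_, fun z hz => nomatch hz⟩
  | sort v => exact ⟨_, fun z hz => nomatch hz⟩
  | lam hC _ ih =>
    exact acc_pair Tm.lam (fun hz => by
      cases hz with
      | lamL _ h => exact .inl ⟨_, rfl, h⟩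
      | lamR _ h => exact .inr ⟨_, rfl, h⟩) hC ih
  | tlam hC _ ih =>
    exact acc_pair Tm.lam (fun hz => by
      cases hz with
      | tlamL _ h => exact .inl ⟨_, rfl, h⟩
      | tlamR _ h => exact .inr ⟨_, rfl, h⟩) hC ih
  | app _ _ ihf iha =>
    exact acc_pair Tm.app (fun hz => by
      cases hz with
      | appL _ h => exact .inl ⟨_, rfl, h⟩
      | appR _ h => exact .inr ⟨_, rfl, h⟩) ihf iha
  | tapp _ ha ihf =>
    exact acc_pair Tm.app (fun hz => by
      cases hz with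
      | tappL _ h => exact .inl ⟨_, rfl, h⟩
      | tappR _ h => exact .inr ⟨_, rfl, h⟩) ihf ha
  | nodeH hC _ ihD =>
    exact acc_pair Tm.pi (fun hz => by
      cases hz with
      | piL _ h => exact .inl ⟨_, rfl, h⟩
      | piRec _ hne h => exact absurd rfl hne
      | piR _ h => exact .inr ⟨_, rfl, h⟩) hC ihD
  | nodeS hne _ _ ihC ihD =>
    exact acc_pair Tm.pi (fun hz => by
      cases hz with
      | piL _ h => exact absurd rfl hne
      | piRec _ _ h => exact .inl ⟨_, rfl, h⟩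
      | piR _ h => exact .inr ⟨_, rfl, h⟩) ihC ihD

/-- All expressions above level `s` are strongly normalizing. -/
def AboveSN (P : Spec S) (s : S) : Prop :=
  ∀ ℓ, Above P s ℓ → ∀ (Γ : List (Tm S)) (M : Tm S), HasLevel P Γ M ℓ → M.SN

theorem AboveSN.of_sort (hU : AboveSN P s) {Γ : List (Tm S)} {C : Tm S} {i : S}
    (h : Typed P Γ C (.sort i)) (hi : ReflTransGen P.Ax s i) : C.SN := by
  obtain ⟨ℓ, hl⟩ := exists_succLevel P i
  exact hU ℓ (hl.above hi) _ _ (h.level_sort hl)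

theorem Skel.toMatch (hU : AboveSN P s) {Γ : List (Tm S)} {M : Tm S} {K : Sk}
    (h : Skel P s Γ M K) : Match K M := by
  induction h with
  | var => exact .var _
  | sort => exact .sort _
  | lamS hC _ ih => exact .lam (hU.of_sort hC .refl) ih
  | lamH hC hi _ ih => exact .tlam (hU.of_sort hC hi.to_reflTransGen) ih
  | appS _ _ _ _ _ ihf iha => exact .app ihf iha
  | appH _ ha hC hi _ ihf => exact .tapp ihf (hU (some _) hi _ _ ⟨_, ha, hC⟩)
  | @piS Γ C D v Kc Kd hC hv hsC _ ihC ihD =>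
    by_cases e : Kc = .con
    · subst e
      obtain ⟨v', rfl⟩ := hsC.con_sort
      exact .nodeH (.of_normal fun _ h => nomatch h) ihD
    · exact .nodeS e ihC ihD
  | piH hC hi _ ih => exact .nodeH (hU.of_sort hC hi) ih

/-- An expression with a strongly normalizing skeleton is strongly normalizing. -/
theorem Skel.sn (hG : P.IsGND) (hU : AboveSN P s) {K : Sk} (hK : K.SN) :
    ∀ {Γ : List (Tm S)} {M : Tm S}, Skel P s Γ M K → M.SN := by
  induction hK with
  | intro K _ ih =>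
    intro Γ M h
    have hacc := (h.toMatch hU).acc
    revert h
    induction hacc with
    | intro M _ ihM =>
      intro h
      refine ⟨_, fun M' hs => ?_⟩
      obtain ⟨K', hK', hh⟩ := h.step hG hs
      rcases hh with hr | ⟨rfl, hc⟩
      · exact ih K' hr hK'
      · exact ihM M' hc hK'

end Vale.Agent.P340
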