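import Vale.Agent.P340.GND.Translate

/-!
# P340: target contexts of the continuation-passing translation

The base context declares `⊥ : s`, `q : ⊥ → ⊥ → ⊥`, `w : Π a : s. a → ⊥` and
`e : Π a : s. ((a → ⊥) → ⊥) → a`. Under `d` further declarations these are the variables
`d + 3`, `d + 2`, `d + 1` and `d`. Translations of expressions above level `s` are typed there.
-/

universe u

namespace Vale.Agent.P340

open Relation

variable {S : Type u}

/-- The type of `e` below `d` declarations. -/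
def eTy (s : S) (d : ℕ) : Tm S := .pi (.sort s) (.pi (Tm.nn (d + 1) (.var 0)) (.var 1))

/-- The type of `w` below `d` declarations. -/
def wTy (s : S) (d : ℕ) : Tm S := .pi (.sort s) (Tm.neg (d + 1) (.var 0))

/-- The type of `q` below `d` declarations. -/
def qTy (d : ℕ) : Tm S := .pi (.var (d + 3)) (Tm.neg (d + 1) (.var (d + 4)))

theorem eTy_lift (s : S) (d : ℕ) : (eTy s d).lift = eTy s (d + 1) := rfl

theorem wTy_lift (s : S) (d : ℕ) : (wTy s d).lift = wTy s (d + 1) := rfl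

theorem qTy_lift (d : ℕ) : (qTy d : Tm S).lift = qTy (d + 1) := rfl

/-- The constants of the translation are declared below `d` entries. -/
structure Base (P : Spec S) (s : S) (d : ℕ) (Δ : List (Tm S)) : Prop where
  wf : WF P Δ
  atE : At Δ d (eTy s d)
  atW : At Δ (d + 1) (wTy s d)
  atQ : At Δ (d + 2) (qTy d)
  atBot : At Δ (d + 3) (.sort s)

/-- The system has what the translation at level `s` needs. -/
structure CPSRules (P : Spec S) (s t : S) : Prop where
  gnd : P.IsGND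
  ax : P.Ax s t
  rss : P.Rule s s s
  rts : P.Rule t s s

variable {P : Spec S} {s t : S} {d : ℕ} {Δ : List (Tm S)}

theorem Base.cons (hB : Base P s d Δ) {X : Tm S} {i : S} (hX : Typed P Δ X (.sort i)) :
    Base P s (d + 1) (X :: Δ) where
  wf := .cons hB.wf hX
  atE := by rw [← eTy_lift]; exact .succ X hB.atE
  atW := by rw [← wTy_lift]; exact .succ X hB.atW
  atQ := by rw [← qTy_lift]; exact .succ X hB.atQ
  atBot := .succ X hB.atBot

theorem Base.bot (hB : Base P s d Δ) : Typed P Δ (.var (d + 3)) (.sort s) :=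
  .var' hB.wf hB.atBot

theorem CPSRules.neg (hR : CPSRules P s t) (hB : Base P s d Δ) {A : Tm S}
    (hA : Typed P Δ A (.sort s)) : Typed P Δ (Tm.neg d A) (.sort s) :=
  .prod hA (hB.cons hA).bot hR.rss

theorem CPSRules.nn (hR : CPSRules P s t) (hB : Base P s d Δ) {A : Tm S}
    (hA : Typed P Δ A (.sort s)) : Typed P Δ (Tm.nn d A) (.sort s) :=
  hR.neg hB (hR.neg hB hA)

theorem CPSRules.sort (hR : CPSRules P s t) (hW : WF P Δ) :
    Typed P Δ (.sort s) (.sort t) := .ax' hW hR.ax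

theorem CPSRules.eType (hR : CPSRules P s t) (hB : Base P s d Δ) :
    Typed P Δ (eTy s d) (.sort s) := by
  have hs := hR.sort hB.wf
  have hB1 := hB.cons hs
  have ha : Typed P (.sort s :: Δ) (.var 0) (.sort s) := .var hs
  have hn := hR.nn hB1 ha
  exact .prod hs (.prod hn (.var' (hB1.cons hn).wf (.succ _ (.zero _ _))) hR.rss) hR.rts

theorem CPSRules.wType (hR : CPSRules P s t) (hB : Base P s d Δ) :
    Typed P Δ (wTy s d) (.sort s) := by
  have hs := hR.sort hB.wf
  exact .prod hs (hR.neg (hB.cons hs) (.var hs)) hR.rts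

theorem CPSRules.qType (hR : CPSRules P s t) (hB : Base P s d Δ) :
    Typed P Δ (qTy d) (.sort s) :=
  .prod hB.bot (hR.neg (hB.cons hB.bot) (hB.cons hB.bot).bot) hR.rss

/-- The contexts below the translated declarations. -/
def baseCtx (s : S) : List (Tm S) :=
  [.pi (.sort s) (.pi (Tm.nn 0 (.var 0)) (.var 1)), .pi (.sort s) (.pi (.var 0) (.var 3)),
    .pi (.var 0) (.pi (.var 1) (.var 2)), .sort s]

theorem baseCtx_wf (hR : CPSRules P s t) : WF P (baseCtx s) := by
  have h0 : Typed P ([] : List (Tm S)) (.sort s) (.sort t) := .ax hR.ax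
  have w1 : WF P [Tm.sort s] := .cons .nil h0
  have v1 : Typed P [Tm.sort s] (.var 0) (.sort s) := .var h0
  have w1' := WF.cons w1 v1
  have v2 : Typed P [Tm.var 0, Tm.sort s] (.var 1) (.sort s) :=
    .var' w1' (.succ _ (.zero _ _))
  have hq : Typed P [Tm.sort s] (.pi (.var 0) (.pi (.var 1) (.var 2))) (.sort s) :=
    .prod v1 (.prod v2 (.var' (.cons w1' v2) (.succ _ (.succ _ (.zero _ _)))) hR.rss) hR.rss
  have w2 := WF.cons w1 hq
  have hs2 := hR.sort w2
  have va := Typed.var hs2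
  have hw : Typed P [.pi (.var 0) (.pi (.var 1) (.var 2)), Tm.sort s]
      (.pi (.sort s) (.pi (.var 0) (.var 3))) (.sort s) :=
    .prod hs2 (.prod va (.var' (.cons va.wf va) (.succ _ (.succ _ (.succ _ (.zero _ _))))) hR.rss)
      hR.rts
  have w3 := WF.cons w2 hw
  have hs3 := hR.sort w3
  have vb := Typed.var hs3
  have hb := vb.wf
  have n1 : Typed P _ (Tm.neg 0 (.var 0)) (.sort s) :=
    .prod vb (.var' (.cons hb vb) (.succ _ (.succ _ (.succ _ (.succ _ (.zero _ _)))))) hR.rss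
  have n2 : Typed P _ (Tm.nn 0 (.var 0)) (.sort s) :=
    .prod n1 (.var' (.cons hb n1) (.succ _ (.succ _ (.succ _ (.succ _ (.zero _ _)))))) hR.rss
  exact .cons w3 (Typed.prod hs3 (.prod n2 (.var' (.cons hb n2) (.succ _ (.zero _ _))) hR.rss)
    hR.rts)

/-- Target contexts. -/
inductive CtxTr (P : Spec S) (s : S) : List (Tm S) → List (Tm S) → Prop where
  | nil : CtxTr P s [] (baseCtx s)
  | high {Γ Δ : List (Tm S)} {A A' : Tm S} {i : S} : CtxTr P s Γ Δ →
      Typed P Γ A (.sort i) → TransGen P.Ax s i → Tr P s Γ A A' →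
      CtxTr P s (A :: Γ) (A' :: Δ)
  | same {Γ Δ : List (Tm S)} {A A' : Tm S} : CtxTr P s Γ Δ →
      Typed P Γ A (.sort s) → Tr P s Γ A A' →
      CtxTr P s (A :: Γ) (Tm.nn Γ.length A' :: Δ)
  | other {Γ Δ : List (Tm S)} {A X : Tm S} {i : S} : CtxTr P s Γ Δ →
      Typed P Γ A (.sort i) → ¬ ReflTransGen P.Ax s i → CtxTr P s (A :: Γ) (X :: Δ)

variable {Γ : List (Tm S)}

theorem CtxTr.base (hC : CtxTr P s Γ Δ) (hW : WF P Δ) : Base P s Γ.length Δ := by
  induction hC with
  | nil =>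
    exact ⟨hW, .zero _ _, .succ _ (.zero _ _), .succ _ (.succ _ (.zero _ _)),
      .succ _ (.succ _ (.succ _ (.zero _ _)))⟩
  | high _ _ _ _ ih => cases hW with | cons hW hX => exact (ih hW).cons hX
  | same _ _ _ ih => cases hW with | cons hW hX => exact (ih hW).cons hX
  | other _ _ _ ih => cases hW with | cons hW hX => exact (ih hW).cons hX

theorem CtxTr.tail {A : Tm S} (hC : CtxTr P s (A :: Γ) Δ) :
    ∃ X Δ₀, Δ = X :: Δ₀ ∧ CtxTr P s Γ Δ₀ := by
  cases hC with
  | high h _ _ _ => exact ⟨_, _, rfl, h⟩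
  | same h _ _ => exact ⟨_, _, rfl, h⟩
  | other h _ _ => exact ⟨_, _, rfl, h⟩

theorem HasLevel.weak {M B : Tm S} {i : S} {ℓ : Option S}
    (h : HasLevel P Γ M ℓ) (hB : Typed P Γ B (.sort i)) : HasLevel P (B :: Γ) M.lift ℓ := by
  cases ℓ with
  | none => obtain ⟨v, hv, hn⟩ := h; exact ⟨v, hv.weak hB, hn⟩
  | some j => obtain ⟨A, hA, hj⟩ := h; exact ⟨A.lift, hA.weak hB, hj.weak hB⟩

theorem Typed.lam_typed {C b T : Tm S} (h : Typed P Γ (.lam C b) T) : ∃ i, Typed P Γ C (.sort i) := by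
  obtain ⟨_, _, -, hp, -⟩ := h.gen_lam rfl
  exact hp.pi_dom rfl

/-- Translations of expressions above level `s` are typed by translations of their types. -/
theorem Tr.typed (hR : CPSRules P s t) {M A : Tm S} (h : Typed P Γ M A) :
    ∀ {ℓ : Option S}, HasLevel P Γ M ℓ → Above P s ℓ → ∀ {M' A' : Tm S}, Tr P s Γ M M' →
      Tr P s Γ A A' → ∀ {Δ : List (Tm S)}, CtxTr P s Γ Δ → WF P Δ → Typed P Δ M' A' := by
  have hG := hR.gnd
  induction h with
  | ax ha =>
    intro ℓ _ _ M' A' hM hA Δ _ hW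
    cases hM; cases hA
    exact .ax' hW ha
  | @var Γ A i hA _ =>
    intro ℓ hℓ hab M' A' hM hA' Δ hC hW
    have e : ℓ = some i := hℓ.unique hG (ℓ' := some i) ⟨_, .var hA, .weak hA hA⟩
    subst e
    cases hM
    cases hC with
    | high _ _ _ hA₁ =>
      rw [hA'.unique hG (hA₁.lift hG hA)]
      exact .var' hW (.zero _ _)
    | same _ hs _ => exact absurd (hG.unique_sort hA hs ▸ hab : TransGen P.Ax s s) (hG.acyclic s)
    | other _ hi hn => exact absurd (hG.unique_sort hi hA ▸ hab : TransGen P.Ax s _).to_reflTransGen hn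
  | @weak Γ M B A i hMB hA ihM _ =>
    intro ℓ hℓ hab M' A' hM' hA' Δ hC hW
    obtain ⟨ℓ₀, hℓ₀⟩ := hMB.exists_level
    have e : ℓ = ℓ₀ := hℓ.unique hG (hℓ₀.weak hA)
    subst e
    obtain ⟨M₁, hM₁⟩ := Tr.exists_of_level hG hℓ₀ hab
    obtain ⟨B₁, hB₁⟩ := Tr.exists_type hG hℓ₀ hab hMB
    obtain ⟨X, Δ₀, rfl, hC₀⟩ := hC.tail
    cases hW with
    | cons hW₀ hX =>
      rw [hM'.unique hG (hM₁.lift hG hA), hA'.unique hG (hB₁.lift hG hA)]
      exact (ihM hℓ₀ hab hM₁ hB₁ hC₀ hW₀).weak hX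
  | @prod Γ A B s₁ s₂ s₃ hA hB hr ihA ihB =>
    intro ℓ hℓ hab M' A' hM' hA' Δ hC hW
    obtain rfl := hG.ruleEq hr
    obtain ⟨ℓ', hl⟩ := exists_succLevel P s₃
    have e : ℓ = ℓ' := hℓ.unique hG ((Typed.prod hA hB hr).level_sort hl)
    subst e
    obtain ⟨hi, hsucc⟩ := above_pi hG hl hab (hG.ruleReach hr)
    obtain ⟨l₁, hl₁⟩ := exists_succLevel P s₁
    have hab₁ := hsucc l₁ hl₁
    cases hA'
    cases hM' with
    | piS hC₁ hD₁ hC' hD' =>
      obtain rfl := hG.unique_sort hA hC₁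
      obtain rfl := hG.unique_sort hB hD₁
      have h1 := ihA (hA.level_sort hl₁) hab₁ hC' (.sort _) hC hW
      have hn := hR.nn (hC.base hW) h1
      have h2 := ihB (hB.level_sort hl) hab hD' (.sort _) (hC.same hA hC') (.cons hW hn)
      exact .prod hn (hR.nn ((hC.base hW).cons hn) h2) hr
    | piH hC₁ hi₁ hD₁ hC' hD' =>
      obtain rfl := hG.unique_sort hA hC₁
      obtain rfl := hG.unique_sort hB hD₁
      have h1 := ihA (hA.level_sort hl₁) hab₁ hC' (.sort _) hC hW
      have h2 := ihB (hB.level_sort hl) hab hD' (.sort _) (hC.high hA hi₁ hC') (.cons hW h1)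
      exact .prod h1 (hR.nn ((hC.base hW).cons h1) h2) hr
    | piO hC₁ hD₁ hu hC' hD' =>
      obtain rfl := hG.unique_sort hA hC₁
      obtain rfl := hG.unique_sort hB hD₁
      have h1 := ihA (hA.level_sort hl₁) hab₁ hC' (.sort _) hC hW
      refine .prod h1 (ihB (hB.level_sort hl) hab hD' (.sort _) ?_ (.cons hW h1)) hr
      by_cases hs : TransGen P.Ax s s₁
      · exact hC.high hA hs hC'
      · refine hC.other hA fun hrt => ?_
        rcases reflTransGen_iff_eq_or_transGen.1 hrt with e | h'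
        · rcases hi with e' | h'
          · exact hu (e'.symm.trans e)
          · exact hs h'
        · exact hs h'
  | @lam Γ A B M i hMB hP ihM ihP =>
    intro ℓ hℓ hab M' A' hM' hA' Δ hC hW
    have e : ℓ = some i := hℓ.unique hG (ℓ' := some i) ⟨_, .lam hMB hP, hP⟩
    subst e
    obtain ⟨j, v, w, hA, hB, hr, hc⟩ := hP.gen_pi rfl
    obtain rfl := hG.ruleEq hr
    obtain rfl := hc.sort_inj
    cases hM' with
    | lam hA₁ hAt hMt =>
      obtain rfl := hG.unique_sort hA hA₁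
      have hj : TransGen P.Ax s j := TransGen.trans_left hab (hG.ruleReach hr)
      obtain ⟨l, hl⟩ := exists_succLevel P w
      have habP := hl.above (TransGen.to_reflTransGen hab)
      cases hA' with
      | piS _ hB' _ _ =>
        exact absurd (hG.unique_sort hB hB' ▸ hab : TransGen P.Ax s s) (hG.acyclic s)
      | piH _ _ hB' _ _ =>
        exact absurd (hG.unique_sort hB hB' ▸ hab : TransGen P.Ax s s) (hG.acyclic s)
      | piO hA₂ hB₂ hu hAt₂ hBt =>
        obtain rfl := hAt.unique hG hAt₂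
        have hp := ihP (hP.level_sort hl) habP (.piO hA₂ hB₂ hu hAt hBt) (.sort _) hC hW
        obtain ⟨j', hj'⟩ := hp.pi_dom rfl
        exact .lam (ihM (ℓ := some w) ⟨B, hMB, hB⟩ hab hMt hBt (hC.high hA hj hAt)
          (.cons hW hj')) hp
  | @app Γ A B M N hM hN ihM ihN =>
    intro ℓ hℓ hab M' A' hM' hA' Δ hC hW
    obtain ⟨j, v, w, hA, hB, hr⟩ := hM.pi_parts
    obtain rfl := hG.ruleEq hr
    have e : ℓ = some w := hℓ.unique hG (ℓ' := some w) ⟨_, .app hM hN, hB.inst hN⟩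
    subst e
    have habN : TransGen P.Ax s j := TransGen.trans_left hab (hG.ruleReach hr)
    have hMl : HasLevel P Γ M (some w) := ⟨_, hM, .prod hA hB hr⟩
    obtain ⟨Pt, hPt⟩ := Tr.exists_type hG hMl hab hM
    cases hM' with
    | app hf ha =>
      cases hPt with
      | piS _ hB' _ _ =>
        exact absurd (hG.unique_sort hB hB' ▸ hab : TransGen P.Ax s s) (hG.acyclic s)
      | piH _ _ hB' _ _ =>
        exact absurd (hG.unique_sort hB hB' ▸ hab : TransGen P.Ax s s) (hG.acyclic s)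
      | piO hA₂ hB₂ hu hAt hBt =>
        have h1 := ihM hMl hab hf (.piO hA₂ hB₂ hu hAt hBt) hC hW
        have h2 := ihN (ℓ := some j) ⟨_, hN, hA⟩ habN ha hAt hC hW
        rw [hA'.unique hG (hBt.inst hG hA hN fun _ => ha)]
        exact .app h1 h2
  | @conv Γ A B M j hMA hB hc ihM ihB =>
    intro ℓ hℓ hab M' A' hM' hA' Δ hC hW
    have e : ℓ = some j := hℓ.unique hG (ℓ' := some j) ⟨B, .conv hMA hB hc, hB⟩
    subst e
    obtain ⟨l, hl⟩ := exists_succLevel P j
    obtain ⟨A₁, hA₁⟩ := Tr.exists_type hG hℓ hab hMA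
    exact .conv (ihM hℓ hab hM' hA₁ hC hW)
      (ihB (hB.level_sort hl) (hl.above (TransGen.to_reflTransGen hab)) hA' (.sort _) hC hW)
      (hA₁.conv hG hA' (hMA.correct.imp_right fun ⟨_, h⟩ => ⟨_, h⟩) (.inr ⟨_, hB⟩) hc)

/-- Types of sort `i ≥ s` have translations of sort `i`. -/
theorem Tr.sort_typed (hR : CPSRules P s t) {A : Tm S} {i : S} (h : Typed P Γ A (.sort i))
    (hi : ReflTransGen P.Ax s i) :
    ∃ A', Tr P s Γ A A' ∧ ∀ Δ, CtxTr P s Γ Δ → WF P Δ → Typed P Δ A' (.sort i) := by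
  obtain ⟨l, hl⟩ := exists_succLevel P i
  have hL := h.level_sort hl
  obtain ⟨A', hA'⟩ := Tr.exists_of_level hR.gnd hL (hl.above hi)
  exact ⟨A', hA', fun Δ hC hW => Tr.typed hR h hL (hl.above hi) hA' (.sort _) hC hW⟩

theorem Tr.sort_typed_of (hR : CPSRules P s t) {A A' : Tm S} {i : S}
    (h : Typed P Γ A (.sort i)) (hi : ReflTransGen P.Ax s i) (hA' : Tr P s Γ A A')
    (hC : CtxTr P s Γ Δ) (hW : WF P Δ) : Typed P Δ A' (.sort i) := by
  obtain ⟨A₁, hA₁, ht⟩ := Tr.sort_typed hR h hi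
  exact hA'.unique hR.gnd hA₁ ▸ ht Δ hC hW

/-- A translated binder for a declaration of sort at least `s`. -/
theorem CtxTr.binder (hR : CPSRules P s t) (hC : CtxTr P s Γ Δ) (hW : WF P Δ) {A : Tm S} {i : S}
    (h : Typed P Γ A (.sort i)) (hi : ReflTransGen P.Ax s i) :
    ∃ X, Typed P Δ X (.sort i) ∧ CtxTr P s (A :: Γ) (X :: Δ) := by
  obtain ⟨A', hA', ht⟩ := Tr.sort_typed hR h hi
  rcases reflTransGen_iff_eq_or_transGen.1 hi with e | hi'
  · subst e
    exact ⟨_, hR.nn (hC.base hW) (ht _ hC hW), hC.same h hA'⟩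
  · exact ⟨_, ht _ hC hW, hC.high h hi' hA'⟩

theorem CtxTr.exists (hR : CPSRules P s t) (h : WF P Γ) :
    ∃ Δ, CtxTr P s Γ Δ ∧ WF P Δ := by
  induction h with
  | nil => exact ⟨_, .nil, baseCtx_wf hR⟩
  | @cons Γ A i _ hA ih =>
    obtain ⟨Δ, hC, hW⟩ := ih
    by_cases hi : ReflTransGen P.Ax s i
    · obtain ⟨X, hX, hC'⟩ := hC.binder hR hW hA hi
      exact ⟨_, hC', .cons hW hX⟩
    · exact ⟨_, hC.other (X := .sort s) hA hi, .cons hW (hR.sort hW)⟩

/-- A variable of sort `s` is declared with the double negation of its type. -/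
theorem CtxTr.lookup (hR : CPSRules P s t) (hC : CtxTr P s Γ Δ) :
    ∀ {n : ℕ} {A A' : Tm S}, At Γ n A → Typed P Γ A (.sort s) → Tr P s Γ A A' →
      At Δ n (Tm.nn Γ.length A') := by
  have hG := hR.gnd
  induction hC with
  | nil => intro n A A' h; cases h
  | @high Γ Δ B B' i hC hB hi hB' ih =>
    intro n A A' hn hA hA'
    cases hn with
    | zero => exact absurd (hG.unique_sort (Typed.weak hB hB) hA ▸ hi : TransGen P.Ax s s) (hG.acyclic s)
    | @succ A₀ _ m _ hm =>
      obtain ⟨j, hj⟩ := hm.typed hB.wf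
      obtain rfl : j = s := hG.unique_sort (Typed.weak hj hB) hA
      obtain ⟨A₁, hA₁, -⟩ := Tr.sort_typed hR hj .refl
      rw [hA'.unique hG (hA₁.lift hG hB), List.length_cons, ← Tm.nn_lift]
      exact .succ _ (ih hm hj hA₁)
  | @same Γ Δ B B' hC hB hB' ih =>
    intro n A A' hn hA hA'
    cases hn with
    | zero =>
      rw [hA'.unique hG (hB'.lift hG hB), List.length_cons, ← Tm.nn_lift]
      exact .zero _ _
    | @succ A₀ _ m _ hm =>
      obtain ⟨j, hj⟩ := hm.typed hB.wf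
      obtain rfl : j = s := hG.unique_sort (Typed.weak hj hB) hA
      obtain ⟨A₁, hA₁, -⟩ := Tr.sort_typed hR hj .refl
      rw [hA'.unique hG (hA₁.lift hG hB), List.length_cons, ← Tm.nn_lift]
      exact .succ _ (ih hm hj hA₁)
  | @other Γ Δ B X i hC hB hi ih =>
    intro n A A' hn hA hA'
    cases hn with
    | zero => exact absurd (hG.unique_sort (Typed.weak hB hB) hA ▸ ReflTransGen.refl) hi
    | @succ A₀ _ m _ hm =>
      obtain ⟨j, hj⟩ := hm.typed hB.wf
      obtain rfl : j = s := hG.unique_sort (Typed.weak hj hB) hA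
      obtain ⟨A₁, hA₁, -⟩ := Tr.sort_typed hR hj .refl
      rw [hA'.unique hG (hA₁.lift hG hB), List.length_cons, ← Tm.nn_lift]
      exact .succ _ (ih hm hj hA₁)

end Vale.Agent.P340
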