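import Vale.Agent.P340.GND.Skel

/-!
# P340: the translation of types used by the continuation-passing case
-/

universe u

namespace Vale.Agent.P340

open Relation

variable {S : Type u}

/-- `A → ⊥` in a context where `⊥` is variable `d + 3`. -/
def Tm.neg (d : ℕ) (A : Tm S) : Tm S := .pi A (.var (d + 4))

/-- `(A → ⊥) → ⊥`. -/
def Tm.nn (d : ℕ) (A : Tm S) : Tm S := Tm.neg d (Tm.neg d A)

theorem Tm.neg_subst (A : Tm S) {d d' : ℕ} {τ : ℕ → Tm S}
    (h : τ (d + 3) = .var (d' + 3)) : (Tm.neg d A).subst τ = Tm.neg d' (A.subst τ) := by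
  show Tm.pi (A.subst τ) (Tm.up τ (d + 3 + 1)) = _
  simp only [Tm.up, h]
  rfl

theorem Tm.nn_subst (A : Tm S) {d d' : ℕ} {τ : ℕ → Tm S}
    (h : τ (d + 3) = .var (d' + 3)) : (Tm.nn d A).subst τ = Tm.nn d' (A.subst τ) := by
  rw [Tm.nn, Tm.neg_subst _ h, Tm.neg_subst _ h]
  rfl

theorem Tm.neg_rename (A : Tm S) {d d' : ℕ} {ξ : ℕ → ℕ}
    (h : ξ (d + 3) = d' + 3) : (Tm.neg d A).rename ξ = Tm.neg d' (A.rename ξ) := by
  rw [Tm.rename_eq_subst, Tm.neg_subst _ (d' := d') (by rw [h]), ← Tm.rename_eq_subst]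

theorem Tm.nn_rename (A : Tm S) {d d' : ℕ} {ξ : ℕ → ℕ}
    (h : ξ (d + 3) = d' + 3) : (Tm.nn d A).rename ξ = Tm.nn d' (A.rename ξ) := by
  rw [Tm.nn, Tm.neg_rename _ h, Tm.neg_rename _ h]
  rfl

theorem Tm.neg_lift (A : Tm S) (d : ℕ) : (Tm.neg d A).lift = Tm.neg (d + 1) A.lift :=
  Tm.neg_rename A (by omega)

theorem Tm.nn_lift (A : Tm S) (d : ℕ) : (Tm.nn d A).lift = Tm.nn (d + 1) A.lift :=
  Tm.nn_rename A (by omega)

theorem Steps.neg {d : ℕ} {A A' : Tm S} (h : Steps A A') : Steps (Tm.neg d A) (Tm.neg d A') :=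
  Steps.pi h .refl

theorem Steps.nn {d : ℕ} {A A' : Tm S} (h : Steps A A') : Steps (Tm.nn d A) (Tm.nn d A') :=
  Steps.neg (Steps.neg h)

/-- Products of sort `s` get double negations; everything else is unchanged. -/
inductive Tr (P : Spec S) (s : S) : List (Tm S) → Tm S → Tm S → Prop where
  | var {Γ : List (Tm S)} {n : ℕ} {A : Tm S} {i : S} :
      At Γ n A → Typed P Γ A (.sort i) → TransGen P.Ax s i → Tr P s Γ (.var n) (.var n)
  | sort {Γ : List (Tm S)} (v : S) : Tr P s Γ (.sort v) (.sort v)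
  | app {Γ : List (Tm S)} {f a f' a' : Tm S} :
      Tr P s Γ f f' → Tr P s Γ a a' → Tr P s Γ (.app f a) (.app f' a')
  | lam {Γ : List (Tm S)} {C b C' b' : Tm S} {i : S} :
      Typed P Γ C (.sort i) → Tr P s Γ C C' → Tr P s (C :: Γ) b b' →
        Tr P s Γ (.lam C b) (.lam C' b')
  | piS {Γ : List (Tm S)} {C D C' D' : Tm S} :
      Typed P Γ C (.sort s) → Typed P (C :: Γ) D (.sort s) → Tr P s Γ C C' →
        Tr P s (C :: Γ) D D' →
        Tr P s Γ (.pi C D) (.pi (Tm.nn Γ.length C') (Tm.nn (Γ.length + 1) D'))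
  | piH {Γ : List (Tm S)} {C D C' D' : Tm S} {i : S} :
      Typed P Γ C (.sort i) → TransGen P.Ax s i → Typed P (C :: Γ) D (.sort s) →
        Tr P s Γ C C' → Tr P s (C :: Γ) D D' →
        Tr P s Γ (.pi C D) (.pi C' (Tm.nn (Γ.length + 1) D'))
  | piO {Γ : List (Tm S)} {C D C' D' : Tm S} {i u : S} :
      Typed P Γ C (.sort i) → Typed P (C :: Γ) D (.sort u) → u ≠ s →
        Tr P s Γ C C' → Tr P s (C :: Γ) D D' → Tr P s Γ (.pi C D) (.pi C' D')

variable {P : Spec S} {s : S}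

theorem Tr.subst (hG : P.IsGND) {Γ : List (Tm S)} {M M' : Tm S} (h : Tr P s Γ M M') :
    ∀ {Δ : List (Tm S)} {σ τ : ℕ → Tm S}, WF P Δ → Sub P σ Γ Δ →
      (∀ n A i, At Γ n A → Typed P Γ A (.sort i) → TransGen P.Ax s i → Tr P s Δ (σ n) (τ n)) →
      τ (Γ.length + 3) = .var (Δ.length + 3) → Tr P s Δ (M.subst σ) (M'.subst τ) := by
  have up : ∀ {Γ Δ : List (Tm S)} {σ τ : ℕ → Tm S} {C : Tm S} {i : S},
      Typed P Γ C (.sort i) → Sub P σ Γ Δ → Typed P Δ (C.subst σ) (.sort i) →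
      (∀ n A i, At Γ n A → Typed P Γ A (.sort i) → TransGen P.Ax s i →
        Tr P s Δ (σ n) (τ n)) →
      (∀ {N N' : Tm S}, Tr P s Δ N N' → Tr P s (C.subst σ :: Δ) N.lift N'.lift) →
      ∀ n A j, At (C :: Γ) n A → Typed P (C :: Γ) A (.sort j) → TransGen P.Ax s j →
        Tr P s (C.subst σ :: Δ) (Tm.up σ n) (Tm.up τ n) := by
    intro Γ Δ σ τ C i hC hσ hC' hτ hlift n A j hn hA hj
    cases hn with
    | zero =>
      refine .var (.zero _ _) ?_ hj
      rw [← Tm.lift_subst]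
      exact hA.subst (.cons hC'.wf hC') (hσ.up _ hC')
    | @succ A₀ _ m _ hm =>
      obtain ⟨l, hl⟩ := hm.typed hC.wf
      have e : l = j := hG.unique_sort (Typed.weak hl hC) hA
      exact hlift (hτ m A₀ j hm (e ▸ hl) hj)
  have upBot : ∀ {Γ Δ : List (Tm S)} {τ : ℕ → Tm S} {C C₁ : Tm S},
      τ (Γ.length + 3) = .var (Δ.length + 3) →
      Tm.up τ ((C :: Γ).length + 3) = .var ((C₁ :: Δ).length + 3) := by
    intro Γ Δ τ C C₁ h
    show (τ (Γ.length + 3)).lift = _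
    rw [h]
    rfl
  have ren : ∀ {Γ : List (Tm S)} {N N' : Tm S}, Tr P s Γ N N' →
      ∀ {Δ : List (Tm S)} {ξ : ℕ → ℕ}, WF P Δ → Ren ξ Γ Δ →
        ξ (Γ.length + 3) = Δ.length + 3 → Tr P s Δ (N.rename ξ) (N'.rename ξ) := by
    intro Γ N N' h
    induction h with
    | var ha hA hi => exact fun hΔ hξ _ => .var (hξ _ _ ha) (hA.rename hΔ hξ) hi
    | sort v => exact fun _ _ _ => .sort v
    | app _ _ ihf iha => exact fun hΔ hξ hb => .app (ihf hΔ hξ hb) (iha hΔ hξ hb)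
    | lam hC _ _ ihC ihb =>
      intro Δ ξ hΔ hξ hb
      have hC' := hC.rename hΔ hξ
      exact .lam hC' (ihC hΔ hξ hb) (ihb (.cons hΔ hC') (hξ.up _) (congrArg (· + 1) hb))
    | @piS Γ C D C' D' hC hD _ _ ihC ihD =>
      intro Δ ξ hΔ hξ hb
      have hC' := hC.rename hΔ hξ
      show Tr P s Δ _ (.pi ((Tm.nn Γ.length C').rename ξ)
        ((Tm.nn (Γ.length + 1) D').rename (Tm.upRen ξ)))
      rw [Tm.nn_rename _ hb, Tm.nn_rename _ (d' := Δ.length + 1) (congrArg (· + 1) hb)]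
      exact .piS hC' (hD.rename (.cons hΔ hC') (hξ.up _)) (ihC hΔ hξ hb)
        (ihD (.cons hΔ hC') (hξ.up _) (congrArg (· + 1) hb))
    | @piH Γ C D C' D' i hC hi hD _ _ ihC ihD =>
      intro Δ ξ hΔ hξ hb
      have hC' := hC.rename hΔ hξ
      show Tr P s Δ _ (.pi (C'.rename ξ) ((Tm.nn (Γ.length + 1) D').rename (Tm.upRen ξ)))
      rw [Tm.nn_rename _ (d' := Δ.length + 1) (congrArg (· + 1) hb)]
      exact .piH hC' hi (hD.rename (.cons hΔ hC') (hξ.up _)) (ihC hΔ hξ hb)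
        (ihD (.cons hΔ hC') (hξ.up _) (congrArg (· + 1) hb))
    | piO hC hD hu _ _ ihC ihD =>
      intro Δ ξ hΔ hξ hb
      have hC' := hC.rename hΔ hξ
      exact .piO hC' (hD.rename (.cons hΔ hC') (hξ.up _)) hu (ihC hΔ hξ hb)
        (ihD (.cons hΔ hC') (hξ.up _) (congrArg (· + 1) hb))
  have lift : ∀ {Δ : List (Tm S)} {B : Tm S} {i : S}, Typed P Δ B (.sort i) →
      ∀ {N N' : Tm S}, Tr P s Δ N N' → Tr P s (B :: Δ) N.lift N'.lift :=
    fun {_ _ _} hB {_ _} h => ren h (.cons hB.wf hB) WF.ren_succ (by simp only [List.length_cons])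
  induction h with
  | var ha hA hi => exact fun _ _ hτ _ => hτ _ _ _ ha hA hi
  | sort v => exact fun _ _ _ _ => .sort v
  | app _ _ ihf iha => exact fun hΔ hσ hτ hb => .app (ihf hΔ hσ hτ hb) (iha hΔ hσ hτ hb)
  | lam hC _ _ ihC ihb =>
    intro Δ σ τ hΔ hσ hτ hb
    have hC' := hC.subst hΔ hσ
    exact .lam hC' (ihC hΔ hσ hτ hb)
      (ihb (.cons hΔ hC') (hσ.up _ hC') (up hC hσ hC' hτ (lift hC')) (upBot hb))
  | @piS Γ C D C' D' hC hD _ _ ihC ihD =>
    intro Δ σ τ hΔ hσ hτ hb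
    have hC' := hC.subst hΔ hσ
    show Tr P s Δ _ (.pi ((Tm.nn Γ.length C').subst τ)
      ((Tm.nn (Γ.length + 1) D').subst (Tm.up τ)))
    rw [Tm.nn_subst _ hb, Tm.nn_subst (d := Γ.length + 1) _ (d' := Δ.length + 1) (upBot (C := C) (C₁ := C) hb)]
    exact .piS hC' (hD.subst (.cons hΔ hC') (hσ.up _ hC')) (ihC hΔ hσ hτ hb)
      (ihD (.cons hΔ hC') (hσ.up _ hC') (up hC hσ hC' hτ (lift hC')) (upBot hb))
  | @piH Γ C D C' D' i hC hi hD _ _ ihC ihD =>
    intro Δ σ τ hΔ hσ hτ hb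
    have hC' := hC.subst hΔ hσ
    show Tr P s Δ _ (.pi (C'.subst τ) ((Tm.nn (Γ.length + 1) D').subst (Tm.up τ)))
    rw [Tm.nn_subst (d := Γ.length + 1) _ (d' := Δ.length + 1) (upBot (C := C) (C₁ := C) hb)]
    exact .piH hC' hi (hD.subst (.cons hΔ hC') (hσ.up _ hC')) (ihC hΔ hσ hτ hb)
      (ihD (.cons hΔ hC') (hσ.up _ hC') (up hC hσ hC' hτ (lift hC')) (upBot hb))
  | piO hC hD hu _ _ ihC ihD =>
    intro Δ σ τ hΔ hσ hτ hb
    have hC' := hC.subst hΔ hσ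
    exact .piO hC' (hD.subst (.cons hΔ hC') (hσ.up _ hC')) hu (ihC hΔ hσ hτ hb)
      (ihD (.cons hΔ hC') (hσ.up _ hC') (up hC hσ hC' hτ (lift hC')) (upBot hb))

theorem Tr.lift (hG : P.IsGND) {Γ : List (Tm S)} {M M' B : Tm S} {i : S} (h : Tr P s Γ M M')
    (hB : Typed P Γ B (.sort i)) : Tr P s (B :: Γ) M.lift M'.lift := by
  have hW : WF P (B :: Γ) := .cons hB.wf hB
  have := h.subst hG (σ := fun n => Tm.var (n + 1)) (τ := fun n => Tm.var (n + 1)) hW
    (fun n A hA => by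
      have e : A.subst (fun n => Tm.var (n + 1)) = A.lift := (Tm.rename_eq_subst A _).symm
      rw [e]
      exact .var' hW (.succ _ hA))
    (fun n A j hA hAj hj => .var (.succ _ hA) (Typed.weak hAj hB) hj)
    (by simp only [List.length_cons])
  rwa [← Tm.rename_eq_subst, ← Tm.rename_eq_subst] at this

theorem Tr.inst (hG : P.IsGND) {Γ : List (Tm S)} {C D D' a X : Tm S} {i : S}
    (h : Tr P s (C :: Γ) D D') (hC : Typed P Γ C (.sort i)) (ha : Typed P Γ a C)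
    (hX : TransGen P.Ax s i → Tr P s Γ a X) : Tr P s Γ (D.inst a) (D'.inst X) :=
  h.subst hG ha.wf
    (fun n A hA => by
      cases hA with
      | zero => show Typed P Γ a (C.lift.inst a); rwa [Tm.lift_subst_single]
      | succ _ hA =>
        show Typed P Γ (Tm.var _) (Tm.inst (Tm.lift _) a)
        rw [Tm.lift_subst_single]
        exact .var' ha.wf hA)
    (fun n A j hA hAj hj => by
      cases hA with
      | zero =>
        have e : i = j := hG.unique_sort (Typed.weak hC hC) hAj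
        exact hX (e ▸ hj)
      | @succ A₀ _ m _ hA =>
        obtain ⟨l, hl⟩ := hA.typed ha.wf
        have e : l = j := hG.unique_sort (Typed.weak hl hC) hAj
        exact .var hA (e ▸ hl) hj)
    rfl

theorem Tr.ctxConv (hG : P.IsGND) {Γ : List (Tm S)} {A A' M M' : Tm S} {i : S}
    (h : Tr P s (A :: Γ) M M') (hA : Typed P Γ A (.sort i)) (hA' : Typed P Γ A' (.sort i))
    (hc : Conv A A') : Tr P s (A' :: Γ) M M' := by
  have hW : WF P (A' :: Γ) := .cons hA'.wf hA'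
  have := h.subst hG (σ := fun n => Tm.var n) (τ := fun n => Tm.var n) hW
    (fun n B hB => by
      rw [Tm.subst_var]
      cases hB with
      | zero => exact .conv (.var hA') (.weak hA hA') ((hc.rename _).symm')
      | succ _ hB => exact .var' hW (.succ _ hB))
    (fun n B j hB hBj hj => by
      cases hB with
      | zero =>
        have e : i = j := hG.unique_sort (Typed.weak hA hA) hBj
        exact .var (.zero _ _) (e ▸ Typed.weak hA' hA') hj
      | @succ B₀ _ m _ hB =>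
        obtain ⟨l, hl⟩ := hB.typed hA.wf
        have e : l = j := hG.unique_sort (Typed.weak hl hA) hBj
        exact .var (.succ _ hB) (e ▸ Typed.weak hl hA') hj)
    (by simp [List.length_cons])
  rwa [Tm.subst_var, Tm.subst_var] at this

theorem Tr.unique (hG : P.IsGND) {Γ : List (Tm S)} {M M₁ : Tm S} (h : Tr P s Γ M M₁) :
    ∀ {M₂ : Tm S}, Tr P s Γ M M₂ → M₁ = M₂ := by
  induction h with
  | var => intro M₂ h₂; cases h₂; rfl
  | sort => intro M₂ h₂; cases h₂; rfl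
  | app _ _ ihf iha => intro M₂ h₂; cases h₂ with | app hf ha => rw [ihf hf, iha ha]
  | lam _ _ _ ihC ihb => intro M₂ h₂; cases h₂ with | lam _ hC hb => rw [ihC hC, ihb hb]
  | piS hC hD _ _ ihC ihD =>
    intro M₂ h₂
    cases h₂ with
    | piS _ _ hC' hD' => rw [ihC hC', ihD hD']
    | piH hC₂ hi _ _ _ => exact absurd (hG.unique_sort hC hC₂ ▸ hi) (hG.acyclic s)
    | piO _ hD₂ hu _ _ => exact absurd (hG.unique_sort hD₂ hD) hu
  | piH hC hi hD _ _ ihC ihD =>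
    intro M₂ h₂
    cases h₂ with
    | piS hC₂ _ _ _ => exact absurd (hG.unique_sort hC hC₂ ▸ hi) (hG.acyclic s)
    | piH _ _ _ hC' hD' => rw [ihC hC', ihD hD']
    | piO _ hD₂ hu _ _ => exact absurd (hG.unique_sort hD₂ hD) hu
  | piO _ hD hu _ _ ihC ihD =>
    intro M₂ h₂
    cases h₂ with
    | piS _ hD₂ _ _ => exact absurd (hG.unique_sort hD hD₂) hu
    | piH _ _ hD₂ _ _ => exact absurd (hG.unique_sort hD hD₂) hu
    | piO _ _ _ hC' hD' => rw [ihC hC', ihD hD']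

theorem Tr.step (hG : P.IsGND) {Γ : List (Tm S)} {M M' : Tm S} (h : Tr P s Γ M M') :
    ∀ {T N : Tm S}, Typed P Γ M T → Step M N → ∃ N', Tr P s Γ N N' ∧ Steps M' N' := by
  induction h with
  | var => intro T N _ h'; cases h'
  | sort => intro T N _ h'; cases h'
  | @app Γ f a f' a' hf ha ihf iha =>
    intro T N hT h'
    obtain ⟨C, D, hfT, haT, -⟩ := hT.gen_app rfl
    cases h' with
    | beta A₀ b _ =>
      cases hf with
      | lam hA₀ hC hb =>
        obtain ⟨B₀, s₀, -, hp, hc⟩ := hfT.gen_lam rfl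
        exact ⟨_, hb.inst hG hA₀ (.conv haT hA₀ hc.pi_inj.1.symm') (fun _ => ha),
          .single (.beta _ _ _)⟩
    | appL _ hs =>
      obtain ⟨N', hN', hs'⟩ := ihf hfT hs
      exact ⟨_, .app hN' ha, Steps.app hs' .refl⟩
    | appR _ hs =>
      obtain ⟨N', hN', hs'⟩ := iha haT hs
      exact ⟨_, .app hf hN', Steps.app .refl hs'⟩
  | lam hC hC' hb ihC ihb =>
    intro T N hT h'
    obtain ⟨B, s₀, hbT, -, -⟩ := hT.gen_lam rfl
    cases h' with
    | lamL _ hs =>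
      obtain ⟨N', hN', hs'⟩ := ihC hC hs
      exact ⟨_, .lam (hC.step hs) hN' (hb.ctxConv hG hC (hC.step hs) (EqvGen.rel _ _ hs)),
        Steps.lam hs' .refl⟩
    | lamR _ hs =>
      obtain ⟨N', hN', hs'⟩ := ihb hbT hs
      exact ⟨_, .lam hC hC' hN', Steps.lam .refl hs'⟩
  | piS hC hD hC' hD' ihC ihD =>
    intro T N _ h'
    cases h' with
    | piL _ hs =>
      obtain ⟨N', hN', hs'⟩ := ihC hC hs
      exact ⟨_, .piS (hC.step hs) (hD.ctxConv (hC.step hs) (EqvGen.rel _ _ hs)) hN'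
        (hD'.ctxConv hG hC (hC.step hs) (EqvGen.rel _ _ hs)), Steps.pi (Steps.nn hs') .refl⟩
    | piR _ hs =>
      obtain ⟨N', hN', hs'⟩ := ihD hD hs
      exact ⟨_, .piS hC (hD.step hs) hC' hN', Steps.pi .refl (Steps.nn hs')⟩
  | piH hC hi hD hC' hD' ihC ihD =>
    intro T N _ h'
    cases h' with
    | piL _ hs =>
      obtain ⟨N', hN', hs'⟩ := ihC hC hs
      exact ⟨_, .piH (hC.step hs) hi (hD.ctxConv (hC.step hs) (EqvGen.rel _ _ hs)) hN'
        (hD'.ctxConv hG hC (hC.step hs) (EqvGen.rel _ _ hs)), Steps.pi hs' .refl⟩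
    | piR _ hs =>
      obtain ⟨N', hN', hs'⟩ := ihD hD hs
      exact ⟨_, .piH hC hi (hD.step hs) hC' hN', Steps.pi .refl (Steps.nn hs')⟩
  | piO hC hD hu hC' hD' ihC ihD =>
    intro T N _ h'
    cases h' with
    | piL _ hs =>
      obtain ⟨N', hN', hs'⟩ := ihC hC hs
      exact ⟨_, .piO (hC.step hs) (hD.ctxConv (hC.step hs) (EqvGen.rel _ _ hs)) hu hN'
        (hD'.ctxConv hG hC (hC.step hs) (EqvGen.rel _ _ hs)), Steps.pi hs' .refl⟩
    | piR _ hs =>
      obtain ⟨N', hN', hs'⟩ := ihD hD hs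
      exact ⟨_, .piO hC (hD.step hs) hu hC' hN', Steps.pi .refl hs'⟩

theorem Tr.steps (hG : P.IsGND) {Γ : List (Tm S)} {M M' N : Tm S} (h : Tr P s Γ M M')
    (hT : (∃ v, M = .sort v) ∨ ∃ T, Typed P Γ M T) (hs : Steps M N) :
    ∃ N', Tr P s Γ N N' ∧ Steps M' N' := by
  rcases hT with ⟨v, rfl⟩ | ⟨T, hT⟩
  · exact ⟨M', hs.sort_eq ▸ h, .refl⟩
  · induction hs with
    | refl => exact ⟨M', h, .refl⟩
    | tail h₁ h₂ ih =>
      obtain ⟨N', hN', hs'⟩ := ih
      obtain ⟨N'', hN'', hs''⟩ := hN'.step hG (hT.steps h₁) h₂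
      exact ⟨N'', hN'', hs'.trans hs''⟩

theorem Tr.conv (hG : P.IsGND) {Γ : List (Tm S)} {A A' B B' : Tm S} (hA : Tr P s Γ A A')
    (hB : Tr P s Γ B B') (hTA : (∃ v, A = .sort v) ∨ ∃ T, Typed P Γ A T)
    (hTB : (∃ v, B = .sort v) ∨ ∃ T, Typed P Γ B T) (hc : Conv A B) : Conv A' B' := by
  obtain ⟨L, h1, h2⟩ := hc.join
  obtain ⟨L₁, hL₁, s₁⟩ := hA.steps hG hTA h1
  obtain ⟨L₂, hL₂, s₂⟩ := hB.steps hG hTB h2
  exact .of_join s₁ (hL₁.unique hG hL₂ ▸ s₂)

theorem above_pi (hG : P.IsGND) {i u : S} {ℓ : Option S} (hl : SuccLevel P u ℓ)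
    (hab : Above P s ℓ) (hr : ReflTransGen P.Ax u i) :
    (i = u ∨ TransGen P.Ax s i) ∧ ∀ ℓ', SuccLevel P i ℓ' → Above P s ℓ' := by
  by_cases e : i = u
  · exact ⟨.inl e, fun ℓ' h => (SuccLevel.unique hG (e ▸ h) hl) ▸ hab⟩
  · cases ℓ with
    | none =>
      rcases hr.cases_head with e' | ⟨c, hc, -⟩
      · exact absurd e'.symm e
      · exact absurd hc (hl c)
    | some c =>
      have hi : TransGen P.Ax s i := TransGen.trans_left hab (reach_succ hG hl hr e)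
      exact ⟨.inr hi, fun ℓ' h => h.above hi.to_reflTransGen⟩

theorem Tr.exists_of_level (hG : P.IsGND) :
    ∀ {M : Tm S} {Γ : List (Tm S)} {ℓ : Option S}, HasLevel P Γ M ℓ → Above P s ℓ →
      ∃ M', Tr P s Γ M M' := by
  intro M
  induction M with
  | var n =>
    intro Γ ℓ h hab
    obtain ⟨A, i, hA, hi, rfl⟩ := h.var hG
    exact ⟨_, .var hA hi hab⟩
  | sort v => exact fun _ _ => ⟨_, .sort v⟩
  | app f a ihf iha =>
    intro Γ ℓ h hab
    obtain ⟨C, D, i, s', rfl, hf, ha, hC, -, -, hr, hp⟩ := h.app hG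
    obtain ⟨f', hf'⟩ := ihf (ℓ := some s') ⟨_, hf, hp⟩ hab
    obtain ⟨a', ha'⟩ := iha (ℓ := some i) ⟨C, ha, hC⟩ (TransGen.trans_left hab hr)
    exact ⟨_, .app hf' ha'⟩
  | lam C b ihC ihb =>
    intro Γ ℓ h hab
    obtain ⟨B, i, s', rfl, hC, hb, hB, -, hr, -, -⟩ := h.lam hG
    obtain ⟨l, hl⟩ := exists_succLevel P i
    obtain ⟨C', hC'⟩ :=
      ihC (hC.level_sort hl) (hl.above (TransGen.trans_left hab hr).to_reflTransGen)
    obtain ⟨b', hb'⟩ := ihb (ℓ := some s') ⟨B, hb, hB⟩ hab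
    exact ⟨_, .lam hC hC' hb'⟩
  | pi C D ihC ihD =>
    intro Γ ℓ h hab
    obtain ⟨i, v, hC, hD, -, hr, hl, -⟩ := h.pi hG
    obtain ⟨hi, hsucc⟩ := above_pi hG hl hab hr
    obtain ⟨l, hl'⟩ := exists_succLevel P i
    obtain ⟨C', hC'⟩ := ihC (hC.level_sort hl') (hsucc l hl')
    obtain ⟨D', hD'⟩ := ihD (hD.level_sort hl) hab
    by_cases hv : v = s
    · subst hv
      rcases hi with rfl | hi
      · exact ⟨_, .piS hC hD hC' hD'⟩
      · exact ⟨_, .piH hC hi hD hC' hD'⟩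
    · exact ⟨_, .piO hC hD hv hC' hD'⟩

/-- Types of high expressions have translations. -/
theorem Tr.exists_type (hG : P.IsGND) {Γ : List (Tm S)} {M A : Tm S} {ℓ : Option S}
    (h : HasLevel P Γ M ℓ) (hab : Above P s ℓ) (hA : Typed P Γ M A) :
    ∃ A', Tr P s Γ A A' := by
  rcases hA.correct with ⟨v, rfl⟩ | ⟨i, hi⟩
  · exact ⟨_, .sort v⟩
  · have e : ℓ = some i := h.unique hG (ℓ' := some i) ⟨A, hA, hi⟩
    subst e
    obtain ⟨l, hl⟩ := exists_succLevel P i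
    exact Tr.exists_of_level hG (hi.level_sort hl) (hl.above hab.to_reflTransGen)

end Vale.Agent.P340
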